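import Mathlib

/-!
# The affine maximal equation
-/

namespace Vale.Agent.P252

/-- The Hessian matrix of `u` at `x` in the standard coordinates. -/
noncomputable def hessian {n : ℕ} (u : (Fin n → ℝ) → ℝ) (x : Fin n → ℝ) :
    Matrix (Fin n) (Fin n) ℝ :=
  Matrix.of fun i j => fderiv ℝ (fderiv ℝ u) x (Pi.single i 1) (Pi.single j 1)

/-- `w = (det D²u) ^ (-(n+1)/(n+2))`. -/
noncomputable def affineW {n : ℕ} (u : (Fin n → ℝ) → ℝ) (x : Fin n → ℝ) : ℝ :=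
  (hessian u x).det ^ (-(((n : ℝ) + 1) / ((n : ℝ) + 2)))

/-- The affine maximal equation at `x`: `∑ U^{ij} ∂ᵢⱼ w = 0`, `U = det(D²u) (D²u)⁻¹`. -/
def IsAffineMaximalAt {n : ℕ} (u : (Fin n → ℝ) → ℝ) (x : Fin n → ℝ) : Prop :=
  ∑ i, ∑ j, (hessian u x).det * (hessian u x)⁻¹ i j * hessian (affineW u) x i j = 0

end Vale.Agent.P252
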