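import Vale.Agent.P252.Interface
import Vale.Agent.P252.Equation

/-!
# The affine maximal graph attached to a radial profile

For `P : Profile n` the function `x ↦ √(x₀² + F (|x'|²))` is smooth, has positive definite Hessian,
solves the affine maximal equation and is not quadratic.
-/

namespace Vale.Agent.P252

open Set Finset Matrix

namespace Calc

variable {n : ℕ} (P : Profile n) (i₀ : Fin n)

/-- Indicator of the radial coordinates. -/
def cc (i : Fin n) : ℝ := if i = i₀ then 0 else 1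

/-- Indicator of the distinguished coordinate. -/
def ee (i : Fin n) : ℝ := if i = i₀ then 1 else 0

/-- `|x'|²`. -/
def sq (x : Fin n → ℝ) : ℝ := ∑ i, cc i₀ i * x i ^ 2

/-- The vector `(x', 0)`. -/
def av (x : Fin n → ℝ) (i : Fin n) : ℝ := cc i₀ i * x i

/-- The diagonal `(F', …, F', 1)`. -/
def dd (x : Fin n → ℝ) (i : Fin n) : ℝ := if i = i₀ then 1 else P.F₁ (sq i₀ x)

/-- Half the gradient of `G`. -/
def gv (x : Fin n → ℝ) (i : Fin n) : ℝ := P.F₁ (sq i₀ x) * av i₀ x i + ee i₀ i * x i₀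

/-- The square of the solution. -/
def G (x : Fin n → ℝ) : ℝ := x i₀ ^ 2 + P.F (sq i₀ x)

/-- The solution. -/
noncomputable def sol (x : Fin n → ℝ) : ℝ := G P i₀ x ^ (1 / 2 : ℝ)

/-- The coordinate functionals. -/
noncomputable def pr (i : Fin n) : (Fin n → ℝ) →L[ℝ] ℝ :=
  ContinuousLinearMap.proj (R := ℝ) (φ := fun _ : Fin n => ℝ) i

lemma pr_apply (i : Fin n) (x : Fin n → ℝ) : pr i x = x i := rfl

lemma sq_nonneg' (x : Fin n → ℝ) : 0 ≤ sq i₀ x :=
  Finset.sum_nonneg fun i _ => mul_nonneg (by unfold cc; split <;> norm_num) (by positivity)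

lemma G_pos (x : Fin n → ℝ) : 0 < G P i₀ x :=
  add_pos_of_nonneg_of_pos (by positivity) (P.F_pos _ (sq_nonneg' i₀ x))

lemma dd_pos (x : Fin n → ℝ) (i : Fin n) : 0 < dd P i₀ x i := by
  unfold dd
  split
  · exact one_pos
  · exact P.F₁_pos _ (sq_nonneg' i₀ x)

lemma dd_eq (x : Fin n → ℝ) (i : Fin n) :
    dd P i₀ x i = P.F₁ (sq i₀ x) * cc i₀ i + ee i₀ i := by
  unfold dd cc ee
  split <;> simp

lemma cc_mul_cc (i : Fin n) : cc i₀ i * cc i₀ i = cc i₀ i := by unfold cc; split <;> simp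

lemma cc_mul_ee (i : Fin n) : cc i₀ i * ee i₀ i = 0 := by unfold cc ee; split <;> simp

lemma ee_mul_ee (i : Fin n) : ee i₀ i * ee i₀ i = ee i₀ i := by unfold ee; split <;> simp

lemma sum_ee_mul (f : Fin n → ℝ) : ∑ i, ee i₀ i * f i = f i₀ := by simp [ee]

lemma av_i₀ (x : Fin n → ℝ) : av i₀ x i₀ = 0 := by simp [av, cc]

/-! ### Derivatives -/

lemma hasFDerivAt_sq (x : Fin n → ℝ) :
    ∃ L : (Fin n → ℝ) →L[ℝ] ℝ, HasFDerivAt (sq i₀) L x ∧
      ∀ i, L (Pi.single i 1) = 2 * av i₀ x i := by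
  refine ⟨_, HasFDerivAt.fun_sum (u := Finset.univ)
    fun i _ => ((pr i).hasFDerivAt.pow 2).const_mul (cc i₀ i), fun j => ?_⟩
  simp only [_root_.sum_apply, _root_.smul_apply, smul_eq_mul, pr_apply]
  rw [Finset.sum_eq_single j]
  · simp [av]; ring
  · intro b _ hb; simp [hb]
  · simp

lemma hasFDerivAt_K {K K₁ : ℝ → ℝ} (hK : ∀ s, 0 ≤ s → HasDerivWithinAt K (K₁ s) (Ici 0) s)
    (x : Fin n → ℝ) :
    ∃ L : (Fin n → ℝ) →L[ℝ] ℝ, HasFDerivAt (fun y => K (sq i₀ y)) L x ∧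
      ∀ i, L (Pi.single i 1) = K₁ (sq i₀ x) * (2 * av i₀ x i) := by
  obtain ⟨L, hL, hv⟩ := hasFDerivAt_sq i₀ x
  refine ⟨_, (hK _ (sq_nonneg' i₀ x)).comp_hasFDerivAt x hL
    (Filter.Eventually.of_forall fun y => sq_nonneg' i₀ y), fun i => ?_⟩
  simp [hv]

lemma hasFDerivAt_G (x : Fin n → ℝ) :
    ∃ L : (Fin n → ℝ) →L[ℝ] ℝ, HasFDerivAt (G P i₀) L x ∧
      ∀ i, L (Pi.single i 1) = 2 * gv P i₀ x i := by
  obtain ⟨L, hL, hv⟩ := hasFDerivAt_K i₀ P.hasDeriv_F x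
  refine ⟨_, ((pr i₀).hasFDerivAt.pow 2).add hL, fun i => ?_⟩
  rcases eq_or_ne i i₀ with rfl | hi
  · simp [hv, gv, ee, av_i₀, pr_apply]
  · simp [hv, gv, ee, av, cc, hi, hi.symm, pr_apply]; ring

lemma hasFDerivAt_Gq (q : ℝ) (x : Fin n → ℝ) :
    ∃ L : (Fin n → ℝ) →L[ℝ] ℝ, HasFDerivAt (fun y => G P i₀ y ^ q) L x ∧
      ∀ i, L (Pi.single i 1) = q * G P i₀ x ^ (q - 1) * (2 * gv P i₀ x i) := by
  obtain ⟨L, hL, hv⟩ := hasFDerivAt_G P i₀ x
  refine ⟨_, hL.rpow_const (p := q) (Or.inl (G_pos P i₀ x).ne'), fun i => ?_⟩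
  simp [hv]

lemma hasFDerivAt_av (j : Fin n) (x : Fin n → ℝ) :
    ∃ L : (Fin n → ℝ) →L[ℝ] ℝ, HasFDerivAt (fun y => av i₀ y j) L x ∧
      ∀ i, L (Pi.single i 1) = if i = j then cc i₀ j else 0 := by
  refine ⟨_, (pr j).hasFDerivAt.const_mul (cc i₀ j), fun i => ?_⟩
  rcases eq_or_ne i j with rfl | h
  · simp [pr_apply]
  · simp [h, h.symm, pr_apply]

lemma hasFDerivAt_gv (j : Fin n) (x : Fin n → ℝ) :
    ∃ L : (Fin n → ℝ) →L[ℝ] ℝ, HasFDerivAt (fun y => gv P i₀ y j) L x ∧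
      ∀ i, L (Pi.single i 1) = (if i = j then dd P i₀ x j else 0)
        + 2 * P.F₂ (sq i₀ x) * av i₀ x i * av i₀ x j := by
  obtain ⟨L, hL, hv⟩ := hasFDerivAt_K i₀ P.hasDeriv_F₁ x
  obtain ⟨A, hA, hAv⟩ := hasFDerivAt_av i₀ j x
  refine ⟨_, (hL.mul hA).add ((pr i₀).hasFDerivAt.const_mul (ee i₀ j)), fun i => ?_⟩
  simp only [_root_.add_apply, _root_.smul_apply, smul_eq_mul, hv, hAv, pr_apply]
  rcases eq_or_ne i j with rfl | h
  · rw [if_pos rfl, if_pos rfl, dd_eq]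
    rcases eq_or_ne i i₀ with rfl | hi
    · simp [ee, cc, av_i₀]
    · simp [ee, cc, hi]; ring
  · rw [if_neg h, if_neg h]
    rcases eq_or_ne j i₀ with rfl | hj
    · simp [ee, av_i₀, h.symm]
    · simp [ee, hj]; ring

/-- The first derivative of `G ^ q * K (sq ·)`. -/
noncomputable def coef (q : ℝ) (K K₁ : ℝ → ℝ) (j : Fin n) (x : Fin n → ℝ) : ℝ :=
  2 * q * (G P i₀ x ^ (q - 1) * K (sq i₀ x) * gv P i₀ x j)
    + 2 * (G P i₀ x ^ q * K₁ (sq i₀ x) * av i₀ x j)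

lemma clm_eq_sum {L : (Fin n → ℝ) →L[ℝ] ℝ} {c : Fin n → ℝ}
    (h : ∀ i, L (Pi.single i 1) = c i) : L = ∑ i, c i • pr i := by
  ext v
  conv_lhs => rw [pi_eq_sum_univ' v]
  simp only [_root_.map_sum, map_smul, h, _root_.sum_apply, _root_.smul_apply, pr_apply,
    smul_eq_mul]
  exact Finset.sum_congr rfl fun j _ => by ring

lemma fderiv_GqK (q : ℝ) {K K₁ : ℝ → ℝ}
    (hK : ∀ s, 0 ≤ s → HasDerivWithinAt K (K₁ s) (Ici 0) s) :
    fderiv ℝ (fun y => G P i₀ y ^ q * K (sq i₀ y))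
      = fun y => ∑ j, coef P i₀ q K K₁ j y • pr j := by
  funext x
  obtain ⟨A, hA, hAv⟩ := hasFDerivAt_Gq P i₀ q x
  obtain ⟨B, hB, hBv⟩ := hasFDerivAt_K i₀ hK x
  rw [(hA.fun_mul hB).fderiv]
  refine clm_eq_sum fun i => ?_
  simp only [_root_.add_apply, _root_.smul_apply, smul_eq_mul, hAv, hBv, coef]
  ring

lemma hasFDerivAt_coef (q : ℝ) {K K₁ K₂ : ℝ → ℝ}
    (hK : ∀ s, 0 ≤ s → HasDerivWithinAt K (K₁ s) (Ici 0) s)
    (hK₁ : ∀ s, 0 ≤ s → HasDerivWithinAt K₁ (K₂ s) (Ici 0) s) (j : Fin n) (x : Fin n → ℝ) :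
    ∃ L : (Fin n → ℝ) →L[ℝ] ℝ, HasFDerivAt (coef P i₀ q K K₁ j) L x ∧
      ∀ i, L (Pi.single i 1) =
        4 * q * (q - 1) * (G P i₀ x ^ q / G P i₀ x / G P i₀ x) * K (sq i₀ x)
            * (gv P i₀ x i * gv P i₀ x j)
        + 2 * q * (G P i₀ x ^ q / G P i₀ x) * K (sq i₀ x)
            * ((if i = j then dd P i₀ x j else 0)
              + 2 * P.F₂ (sq i₀ x) * (av i₀ x i * av i₀ x j))
        + 4 * q * (G P i₀ x ^ q / G P i₀ x) * K₁ (sq i₀ x)
            * (gv P i₀ x i * av i₀ x j + av i₀ x i * gv P i₀ x j)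
        + 2 * G P i₀ x ^ q * K₁ (sq i₀ x) * (if i = j then cc i₀ j else 0)
        + 4 * G P i₀ x ^ q * K₂ (sq i₀ x) * (av i₀ x i * av i₀ x j) := by
  obtain ⟨A, hA, hAv⟩ := hasFDerivAt_Gq P i₀ (q - 1) x
  obtain ⟨A', hA', hAv'⟩ := hasFDerivAt_Gq P i₀ q x
  obtain ⟨B, hB, hBv⟩ := hasFDerivAt_K i₀ hK x
  obtain ⟨B', hB', hBv'⟩ := hasFDerivAt_K i₀ hK₁ x
  obtain ⟨C, hC, hCv⟩ := hasFDerivAt_gv P i₀ j x
  obtain ⟨C', hC', hCv'⟩ := hasFDerivAt_av i₀ j x
  refine ⟨_, (((hA.mul hB).mul hC).const_mul (2 * q)).add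
    (((hA'.mul hB').mul hC').const_mul 2), fun i => ?_⟩
  simp only [Pi.mul_apply, _root_.add_apply, _root_.smul_apply, smul_eq_mul, hAv, hAv', hBv,
    hBv', hCv, hCv', Real.rpow_sub_one (G_pos P i₀ x).ne']
  ring

lemma hessian_GqK (q : ℝ) {K K₁ K₂ : ℝ → ℝ}
    (hK : ∀ s, 0 ≤ s → HasDerivWithinAt K (K₁ s) (Ici 0) s)
    (hK₁ : ∀ s, 0 ≤ s → HasDerivWithinAt K₁ (K₂ s) (Ici 0) s) (x : Fin n → ℝ) (i j : Fin n) :
    hessian (fun y => G P i₀ y ^ q * K (sq i₀ y)) x i j =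
        4 * q * (q - 1) * (G P i₀ x ^ q / G P i₀ x / G P i₀ x) * K (sq i₀ x)
            * (gv P i₀ x i * gv P i₀ x j)
        + 2 * q * (G P i₀ x ^ q / G P i₀ x) * K (sq i₀ x)
            * ((if i = j then dd P i₀ x j else 0)
              + 2 * P.F₂ (sq i₀ x) * (av i₀ x i * av i₀ x j))
        + 4 * q * (G P i₀ x ^ q / G P i₀ x) * K₁ (sq i₀ x)
            * (gv P i₀ x i * av i₀ x j + av i₀ x i * gv P i₀ x j)
        + 2 * G P i₀ x ^ q * K₁ (sq i₀ x) * (if i = j then cc i₀ j else 0)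
        + 4 * G P i₀ x ^ q * K₂ (sq i₀ x) * (av i₀ x i * av i₀ x j) := by
  choose L hL hLv using fun j => hasFDerivAt_coef P i₀ q hK hK₁ j x
  have hd := HasFDerivAt.fun_sum (u := Finset.univ) fun k _ => (hL k).smul_const (pr k)
  rw [hessian, Matrix.of_apply, fderiv_GqK P i₀ q hK, hd.fderiv]
  simp only [_root_.sum_apply,
    ContinuousLinearMap.smulRight_apply, _root_.smul_apply, pr_apply, smul_eq_mul]
  rw [Finset.sum_eq_single j]
  · simp [hLv]
  · intro b _ hb; simp [hb]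
  · simp

/-! ### The scalar invariants -/

/-- `e` at the point `x`. -/
noncomputable def E (x : Fin n → ℝ) : ℝ := eFun P.F P.F₁ P.F₂ (sq i₀ x)

lemma E_pos (x : Fin n → ℝ) : 0 < E P i₀ x := by
  have hs := sq_nonneg' i₀ x
  have h1 := P.F₁_pos _ hs
  have h2 := P.F_pos _ hs
  have h3 := P.curvature _ hs
  unfold E eFun
  nlinarith [mul_pos h1 h2, mul_nonneg hs (sub_nonneg.2 h3)]

lemma sum_av_av (x : Fin n → ℝ) : ∑ i, av i₀ x i * av i₀ x i = sq i₀ x :=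
  Finset.sum_congr rfl fun i _ => by
    linear_combination (norm := (unfold av; ring)) (x i ^ 2) * cc_mul_cc i₀ i

lemma sum_ee_av (x : Fin n → ℝ) : ∑ i, ee i₀ i * av i₀ x i = 0 := by
  rw [sum_ee_mul, av_i₀]

lemma sum_cc : ∑ i, cc i₀ i = (n : ℝ) - 1 := by
  have h : ∀ i, cc i₀ i = 1 - ee i₀ i := fun i => by unfold cc ee; split <;> simp
  simp [h, Finset.sum_sub_distrib, ee]

lemma av_div_dd (x : Fin n → ℝ) (i : Fin n) :
    av i₀ x i / dd P i₀ x i = av i₀ x i / P.F₁ (sq i₀ x) := by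
  unfold dd av cc
  split <;> simp

lemma gv_div_dd (x : Fin n → ℝ) (i : Fin n) :
    gv P i₀ x i / dd P i₀ x i = av i₀ x i + ee i₀ i * x i₀ := by
  have h := (P.F₁_pos _ (sq_nonneg' i₀ x)).ne'
  rcases eq_or_ne i i₀ with rfl | hi
  · simp [gv, dd, ee, av_i₀]
  · simp [gv, dd, ee, hi]; field_simp

lemma cc_div_dd (x : Fin n → ℝ) (i : Fin n) :
    cc i₀ i / dd P i₀ x i = cc i₀ i / P.F₁ (sq i₀ x) := by
  unfold dd cc
  split <;> simp

/-! ### The Hessian of the solution and its inverse -/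

/-- `G^{1/2}` times the Hessian of the solution. -/
noncomputable def M (x : Fin n → ℝ) (i j : Fin n) : ℝ :=
  (if i = j then dd P i₀ x j else 0) + 2 * P.F₂ (sq i₀ x) * (av i₀ x i * av i₀ x j)
    - gv P i₀ x i * gv P i₀ x j / G P i₀ x

/-- The vector proportional to `M⁻¹ g`. -/
noncomputable def rv (x : Fin n → ℝ) (i : Fin n) : ℝ :=
  P.F₁ (sq i₀ x) / (P.F₁ (sq i₀ x) + 2 * sq i₀ x * P.F₂ (sq i₀ x)) * av i₀ x i + ee i₀ i * x i₀

/-- The coefficient of `a aᵀ` in `M⁻¹`. -/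
noncomputable def bet (x : Fin n → ℝ) : ℝ :=
  2 * P.F₂ (sq i₀ x) / (P.F₁ (sq i₀ x) * (P.F₁ (sq i₀ x) + 2 * sq i₀ x * P.F₂ (sq i₀ x)))

/-- The coefficient of `r rᵀ` in `M⁻¹`. -/
noncomputable def cof (x : Fin n → ℝ) : ℝ :=
  (P.F₁ (sq i₀ x) + 2 * sq i₀ x * P.F₂ (sq i₀ x)) / E P i₀ x

/-- The inverse of `M`. -/
noncomputable def N (x : Fin n → ℝ) (i j : Fin n) : ℝ :=
  (if i = j then 1 / dd P i₀ x j else 0) - bet P i₀ x * (av i₀ x i * av i₀ x j)
    + cof P i₀ x * (rv P i₀ x i * rv P i₀ x j)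

lemma sum_mul_N (x : Fin n → ℝ) (v : Fin n → ℝ) (j : Fin n) :
    ∑ k, v k * N P i₀ x k j = v j / dd P i₀ x j
      - bet P i₀ x * av i₀ x j * ∑ k, v k * av i₀ x k
      + cof P i₀ x * rv P i₀ x j * ∑ k, v k * rv P i₀ x k := by
  simp only [N, mul_add, mul_sub, Finset.sum_add_distrib, Finset.sum_sub_distrib, mul_ite,
    mul_zero, Finset.sum_ite_eq', Finset.mem_univ, if_true, Finset.mul_sum, mul_one_div]
  congr 1
  · congr 1
    exact Finset.sum_congr rfl fun k _ => by ring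
  · exact Finset.sum_congr rfl fun k _ => by ring

/-- The coefficient `F' / (F' + 2 s F'')`. -/
noncomputable def gam (x : Fin n → ℝ) : ℝ :=
  P.F₁ (sq i₀ x) / (P.F₁ (sq i₀ x) + 2 * sq i₀ x * P.F₂ (sq i₀ x))

lemma rv_eq (x : Fin n → ℝ) (i : Fin n) :
    rv P i₀ x i = gam P i₀ x * av i₀ x i + ee i₀ i * x i₀ := rfl

lemma sum_gv_av (x : Fin n → ℝ) :
    ∑ i, gv P i₀ x i * av i₀ x i = P.F₁ (sq i₀ x) * sq i₀ x := by
  have : ∀ i, gv P i₀ x i * av i₀ x i
      = P.F₁ (sq i₀ x) * (av i₀ x i * av i₀ x i) + x i₀ * (ee i₀ i * av i₀ x i) :=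
    fun i => by unfold gv; ring
  rw [Finset.sum_congr rfl fun i _ => this i, Finset.sum_add_distrib, ← Finset.mul_sum,
    ← Finset.mul_sum, sum_av_av, sum_ee_av]
  ring

lemma sum_av_rv (x : Fin n → ℝ) :
    ∑ i, av i₀ x i * rv P i₀ x i = gam P i₀ x * sq i₀ x := by
  have : ∀ i, av i₀ x i * rv P i₀ x i
      = gam P i₀ x * (av i₀ x i * av i₀ x i) + x i₀ * (ee i₀ i * av i₀ x i) :=
    fun i => by rw [rv_eq]; ring
  rw [Finset.sum_congr rfl fun i _ => this i, Finset.sum_add_distrib, ← Finset.mul_sum,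
    ← Finset.mul_sum, sum_av_av, sum_ee_av]
  ring

lemma sum_gv_rv (x : Fin n → ℝ) :
    ∑ i, gv P i₀ x i * rv P i₀ x i
      = P.F₁ (sq i₀ x) * gam P i₀ x * sq i₀ x + x i₀ ^ 2 := by
  have : ∀ i, gv P i₀ x i * rv P i₀ x i
      = P.F₁ (sq i₀ x) * gam P i₀ x * (av i₀ x i * av i₀ x i)
        + (P.F₁ (sq i₀ x) + gam P i₀ x) * x i₀ * (ee i₀ i * av i₀ x i)
        + ee i₀ i * x i₀ ^ 2 := fun i => by
    rw [rv_eq]
    linear_combination (norm := (unfold gv; ring)) (x i₀ ^ 2) * ee_mul_ee i₀ i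
  rw [Finset.sum_congr rfl fun i _ => this i, Finset.sum_add_distrib, Finset.sum_add_distrib,
    ← Finset.mul_sum, ← Finset.mul_sum, sum_av_av, sum_ee_av, sum_ee_mul]
  ring

lemma M_mul_N (x : Fin n → ℝ) (i j : Fin n) :
    ∑ k, M P i₀ x i k * N P i₀ x k j = if i = j then 1 else 0 := by
  have hs := sq_nonneg' i₀ x
  have h1 := (P.F₁_pos _ hs).ne'
  have h12 : P.F₁ (sq i₀ x) + 2 * sq i₀ x * P.F₂ (sq i₀ x) ≠ 0 :=
    (add_pos_of_pos_of_nonneg (P.F₁_pos _ hs)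
      (mul_nonneg (by positivity) (P.F₂_nonneg _ hs))).ne'
  have hE := (E_pos P i₀ x).ne'
  have hG := (G_pos P i₀ x).ne'
  have hMk : ∀ k, M P i₀ x i k * N P i₀ x k j
      = (if i = k then dd P i₀ x k * N P i₀ x k j else 0)
        + 2 * P.F₂ (sq i₀ x) * av i₀ x i * (av i₀ x k * N P i₀ x k j)
        - gv P i₀ x i / G P i₀ x * (gv P i₀ x k * N P i₀ x k j) := fun k => by
    unfold M; split <;> ring
  rw [Finset.sum_congr rfl fun k _ => hMk k, Finset.sum_sub_distrib, Finset.sum_add_distrib,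
    Finset.sum_ite_eq, ← Finset.mul_sum, ← Finset.mul_sum, sum_mul_N, sum_mul_N, av_div_dd,
    gv_div_dd, sum_av_av, sum_av_rv, sum_gv_av, sum_gv_rv, if_pos (Finset.mem_univ i)]
  have hN : dd P i₀ x i * N P i₀ x i j = (if i = j then 1 else 0)
      - bet P i₀ x * P.F₁ (sq i₀ x) * (av i₀ x i * av i₀ x j)
      + cof P i₀ x * (P.F₁ (sq i₀ x) * gam P i₀ x * av i₀ x i + ee i₀ i * x i₀)
          * rv P i₀ x j := by
    have hd := (dd_pos P i₀ x i).ne'
    have e1 : dd P i₀ x i * av i₀ x i = P.F₁ (sq i₀ x) * av i₀ x i := by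
      unfold dd av cc; split <;> simp
    have e2 : dd P i₀ x i * (ee i₀ i * x i₀) = ee i₀ i * x i₀ := by
      unfold dd ee; split <;> simp
    have e3 : dd P i₀ x i * (if i = j then 1 / dd P i₀ x j else 0)
        = if i = j then 1 else 0 := by
      split
      · next h => rw [← h]; field_simp
      · simp
    rw [N, mul_add, mul_sub, e3, rv_eq P i₀ x i]
    linear_combination (cof P i₀ x * rv P i₀ x j * gam P i₀ x
      - bet P i₀ x * av i₀ x j) * e1 + (cof P i₀ x * rv P i₀ x j) * e2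
  rw [hN, rv_eq, show gv P i₀ x i = P.F₁ (sq i₀ x) * av i₀ x i + ee i₀ i * x i₀ from rfl]
  generalize (if i = j then (1 : ℝ) else 0) = δ
  generalize ee i₀ i * x i₀ = p
  generalize ee i₀ j * x i₀ = r
  unfold bet cof gam E eFun G at *
  clear hMk hN
  generalize sq i₀ x = t at *
  generalize P.F t = f at *
  generalize P.F₁ t = a at *
  generalize P.F₂ t = b at *
  generalize hD : a + 2 * t * b = D at *
  generalize hε : f * a + 2 * t * f * b - t * a ^ 2 = ε at *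
  field_simp
  subst hD hε
  ring

lemma hessian_sol (x : Fin n → ℝ) (i j : Fin n) :
    hessian (sol P i₀) x i j = G P i₀ x ^ (1 / 2 : ℝ) / G P i₀ x * M P i₀ x i j := by
  have h : sol P i₀ = fun y => G P i₀ y ^ (1 / 2 : ℝ) * (fun _ : ℝ => (1 : ℝ)) (sq i₀ y) := by
    funext y; simp [sol]
  rw [h, hessian_GqK P i₀ (1 / 2) (K₁ := fun _ => 0) (K₂ := fun _ => 0)
    (fun s _ => hasDerivWithinAt_const _ _ _) (fun s _ => hasDerivWithinAt_const _ _ _)]
  unfold M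
  ring

/-- `M` as a matrix. -/
noncomputable def Mm (x : Fin n → ℝ) : Matrix (Fin n) (Fin n) ℝ := Matrix.of (M P i₀ x)

lemma hessian_sol_eq (x : Fin n → ℝ) :
    hessian (sol P i₀) x = (G P i₀ x ^ (1 / 2 : ℝ) / G P i₀ x) • Mm P i₀ x := by
  ext i j
  simp [hessian_sol, Mm]

lemma inv_hessian_sol (x : Fin n → ℝ) :
    (hessian (sol P i₀) x)⁻¹
      = (G P i₀ x ^ (1 / 2 : ℝ) / G P i₀ x)⁻¹ • Matrix.of (N P i₀ x) := by
  apply Matrix.inv_eq_right_inv
  have hG := G_pos P i₀ x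
  have hc : G P i₀ x ^ (1 / 2 : ℝ) / G P i₀ x ≠ 0 :=
    div_ne_zero (Real.rpow_pos_of_pos hG _).ne' hG.ne'
  rw [hessian_sol_eq, Matrix.smul_mul, Matrix.mul_smul, smul_smul, mul_inv_cancel₀ hc, one_smul]
  ext i j
  simp [Mm, Matrix.mul_apply, M_mul_N, Matrix.one_apply]

lemma det_Mm (x : Fin n → ℝ) :
    (Mm P i₀ x).det = P.F₁ (sq i₀ x) ^ (n - 2) * E P i₀ x / G P i₀ x ∨ n < 2 := by
  rcases Nat.lt_or_ge n 2 with hn | hn
  · exact Or.inr hn
  left
  have hs := sq_nonneg' i₀ x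
  have h1 := (P.F₁_pos _ hs).ne'
  have hG := (G_pos P i₀ x).ne'
  set U : Matrix (Fin n) (Fin 2) ℝ := Matrix.of fun i k =>
    if k = 0 then 2 * P.F₂ (sq i₀ x) * (av i₀ x i / dd P i₀ x i)
      else -(gv P i₀ x i / dd P i₀ x i) / G P i₀ x with hU
  set V : Matrix (Fin 2) (Fin n) ℝ := Matrix.of fun k j =>
    if k = 0 then av i₀ x j else gv P i₀ x j with hV
  have hM : Mm P i₀ x = Matrix.diagonal (dd P i₀ x) * (1 + U * V) := by
    ext i j
    have hd := (dd_pos P i₀ x i).ne'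
    rw [Matrix.diagonal_mul]
    simp only [Matrix.add_apply, Matrix.one_apply, Matrix.mul_apply,
      Fin.sum_univ_two, hU, hV, Matrix.of_apply, Mm, M, Fin.one_eq_zero_iff]
    rcases eq_or_ne i j with rfl | h
    · simp; field_simp; ring
    · simp [h]; field_simp; ring
  have hprod : ∏ i, dd P i₀ x i = P.F₁ (sq i₀ x) ^ (n - 1) := by
    rw [← Finset.mul_prod_erase Finset.univ _ (Finset.mem_univ i₀),
      Finset.prod_congr rfl (g := fun _ => P.F₁ (sq i₀ x))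
        (fun i hi => show dd P i₀ x i = _ from if_neg (Finset.ne_of_mem_erase hi))]
    simp [dd]
  have hpow : P.F₁ (sq i₀ x) ^ (n - 1) = P.F₁ (sq i₀ x) * P.F₁ (sq i₀ x) ^ (n - 2) := by
    rw [← pow_succ']; congr 1; omega
  have s00 : ∑ i, av i₀ x i * (av i₀ x i / dd P i₀ x i) = sq i₀ x / P.F₁ (sq i₀ x) := by
    simp only [av_div_dd, ← mul_div_assoc, ← Finset.sum_div, sum_av_av]
  have s01 : ∑ i, av i₀ x i * (gv P i₀ x i / dd P i₀ x i) = sq i₀ x := by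
    simp only [gv_div_dd, mul_add, Finset.sum_add_distrib, sum_av_av]
    rw [Finset.sum_congr rfl (g := fun i => x i₀ * (ee i₀ i * av i₀ x i))
      (fun i _ => by ring), ← Finset.mul_sum, sum_ee_av]
    simp
  have s10 : ∑ i, gv P i₀ x i * (av i₀ x i / dd P i₀ x i) = sq i₀ x := by
    rw [← s01]; exact Finset.sum_congr rfl fun i _ => by ring
  have s11 : ∑ i, gv P i₀ x i * (gv P i₀ x i / dd P i₀ x i)
      = P.F₁ (sq i₀ x) * sq i₀ x + x i₀ ^ 2 := by
    simp only [gv_div_dd, mul_add, Finset.sum_add_distrib, sum_gv_av]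
    rw [Finset.sum_congr rfl (g := fun i => ee i₀ i * (gv P i₀ x i * x i₀))
      (fun i _ => by ring), sum_ee_mul]
    simp [gv, ee, av_i₀]; ring
  rw [hM, Matrix.det_mul, Matrix.det_diagonal, Matrix.det_one_add_mul_comm, Matrix.det_fin_two,
    hprod, hpow]
  have e00 : (V * U) 0 0 = 2 * P.F₂ (sq i₀ x) * (sq i₀ x / P.F₁ (sq i₀ x)) := by
    rw [show 2 * P.F₂ (sq i₀ x) * (sq i₀ x / P.F₁ (sq i₀ x))
      = 2 * P.F₂ (sq i₀ x) * ∑ i, av i₀ x i * (av i₀ x i / dd P i₀ x i) by rw [s00],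
      Finset.mul_sum]
    simp only [Matrix.mul_apply, hU, hV, Matrix.of_apply]
    exact Finset.sum_congr rfl fun i _ => by simp; ring
  have e01 : (V * U) 0 1 = -(sq i₀ x) / G P i₀ x := by
    rw [← s01, ← Finset.sum_neg_distrib, Finset.sum_div]
    simp only [Matrix.mul_apply, hU, hV, Matrix.of_apply, Fin.one_eq_zero_iff]
    exact Finset.sum_congr rfl fun i _ => by simp; ring
  have e10 : (V * U) 1 0 = 2 * P.F₂ (sq i₀ x) * sq i₀ x := by
    rw [show 2 * P.F₂ (sq i₀ x) * sq i₀ x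
      = 2 * P.F₂ (sq i₀ x) * ∑ i, gv P i₀ x i * (av i₀ x i / dd P i₀ x i) by rw [s10],
      Finset.mul_sum]
    simp only [Matrix.mul_apply, hU, hV, Matrix.of_apply, Fin.one_eq_zero_iff]
    exact Finset.sum_congr rfl fun i _ => by simp; ring
  have e11 : (V * U) 1 1 = -(P.F₁ (sq i₀ x) * sq i₀ x + x i₀ ^ 2) / G P i₀ x := by
    rw [← s11, ← Finset.sum_neg_distrib, Finset.sum_div]
    simp only [Matrix.mul_apply, hU, hV, Matrix.of_apply, Fin.one_eq_zero_iff]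
    exact Finset.sum_congr rfl fun i _ => by simp; ring
  simp only [Matrix.add_apply, e00, e01, e10, e11, Matrix.one_apply_eq,
    Matrix.one_apply_ne (show (0 : Fin 2) ≠ 1 by decide),
    Matrix.one_apply_ne (show (1 : Fin 2) ≠ 0 by decide)]
  unfold E eFun G
  unfold G at hG
  field_simp
  ring

lemma posDef_hessian_sol (x : Fin n → ℝ) : (hessian (sol P i₀) x).PosDef := by
  have hG := G_pos P i₀ x
  have hc : 0 < G P i₀ x ^ (1 / 2 : ℝ) / G P i₀ x := div_pos (Real.rpow_pos_of_pos hG _) hG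
  refine Matrix.PosDef.of_dotProduct_mulVec_pos ?_ ?_
  · ext i j
    simp only [Matrix.conjTranspose_apply, star_trivial, hessian_sol, M]
    rcases eq_or_ne i j with rfl | h
    · rfl
    · rw [if_neg h, if_neg h.symm]; ring
  intro v hv
  rw [star_trivial, hessian_sol_eq, Matrix.smul_mulVec, dotProduct_smul, smul_eq_mul]
  refine mul_pos hc ?_
  set p := ∑ i, av i₀ x i * v i with hp
  set R := ∑ i, cc i₀ i * v i ^ 2 with hR
  have hgv : ∑ i, gv P i₀ x i * v i = P.F₁ (sq i₀ x) * p + x i₀ * v i₀ := by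
    have : ∀ i, gv P i₀ x i * v i
        = P.F₁ (sq i₀ x) * (av i₀ x i * v i) + x i₀ * (ee i₀ i * v i) := fun i => by
      unfold gv; ring
    rw [Finset.sum_congr rfl fun i _ => this i, Finset.sum_add_distrib, ← Finset.mul_sum,
      ← Finset.mul_sum, sum_ee_mul, hp]
  have hdd : ∑ i, dd P i₀ x i * v i ^ 2 = P.F₁ (sq i₀ x) * R + v i₀ ^ 2 := by
    simp only [dd_eq, add_mul, Finset.sum_add_distrib, sum_ee_mul, hR, Finset.mul_sum, mul_assoc]
  have hrow : ∀ i, (Mm P i₀ x *ᵥ v) i = dd P i₀ x i * v i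
      + 2 * P.F₂ (sq i₀ x) * av i₀ x i * p
      - gv P i₀ x i / G P i₀ x * (P.F₁ (sq i₀ x) * p + x i₀ * v i₀) := fun i => by
    rw [← hgv, hp, Finset.mul_sum, Finset.mul_sum]
    simp only [Matrix.mulVec, dotProduct, Mm, Matrix.of_apply, M, add_mul, sub_mul, ite_mul,
      zero_mul, Finset.sum_add_distrib, Finset.sum_sub_distrib, Finset.sum_ite_eq,
      Finset.mem_univ, if_true]
    congr 1
    · congr 1
      exact Finset.sum_congr rfl fun j _ => by ring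
    · exact Finset.sum_congr rfl fun j _ => by ring
  have hform : v ⬝ᵥ (Mm P i₀ x *ᵥ v) = P.F₁ (sq i₀ x) * R + v i₀ ^ 2
      + 2 * P.F₂ (sq i₀ x) * p ^ 2
      - (P.F₁ (sq i₀ x) * p + x i₀ * v i₀) ^ 2 / G P i₀ x := by
    have : ∀ i, v i * (Mm P i₀ x *ᵥ v) i = dd P i₀ x i * v i ^ 2
        + 2 * P.F₂ (sq i₀ x) * p * (av i₀ x i * v i)
        - (P.F₁ (sq i₀ x) * p + x i₀ * v i₀) / G P i₀ x * (gv P i₀ x i * v i) := fun i => by
      rw [hrow]; ring
    rw [dotProduct, Finset.sum_congr rfl fun i _ => this i, Finset.sum_sub_distrib,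
      Finset.sum_add_distrib, ← Finset.mul_sum, ← Finset.mul_sum, hdd, hgv, ← hp]
    ring
  rw [hform]
  have hR0 : 0 ≤ R :=
    Finset.sum_nonneg fun i _ => mul_nonneg (by unfold cc; split <;> norm_num) (by positivity)
  have hs := sq_nonneg' i₀ x
  have hF := P.F_pos _ hs
  have hF1 := P.F₁_pos _ hs
  have hF2 := P.F₂_nonneg _ hs
  have hcur := P.curvature _ hs
  have key : (P.F₁ (sq i₀ x) * R + v i₀ ^ 2 + 2 * P.F₂ (sq i₀ x) * p ^ 2
      - (P.F₁ (sq i₀ x) * p + x i₀ * v i₀) ^ 2 / G P i₀ x) * G P i₀ x * P.F (sq i₀ x)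
      = P.F₁ (sq i₀ x) * R * G P i₀ x * P.F (sq i₀ x)
        + (P.F (sq i₀ x) * v i₀ - P.F₁ (sq i₀ x) * x i₀ * p) ^ 2
        + (2 * P.F (sq i₀ x) * P.F₂ (sq i₀ x) - P.F₁ (sq i₀ x) ^ 2) * p ^ 2
          * G P i₀ x := by
    field_simp
    unfold G
    ring
  refine pos_of_mul_pos_left (pos_of_mul_pos_left ?_ hF.le) hG.le
  rw [key]
  rcases hR0.lt_or_eq with hRp | hRz
  · have := mul_pos (mul_pos (mul_pos hF1 hRp) hG) hF
    have := mul_nonneg (mul_nonneg (sub_nonneg.2 hcur) (pow_two_nonneg p)) hG.le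
    nlinarith [sq_nonneg (P.F (sq i₀ x) * v i₀ - P.F₁ (sq i₀ x) * x i₀ * p)]
  · have hz : ∀ i, i ≠ i₀ → v i = 0 := fun i hi => by
      have := (Finset.sum_eq_zero_iff_of_nonneg fun i _ =>
        mul_nonneg (show 0 ≤ cc i₀ i by unfold cc; split <;> norm_num)
          (pow_two_nonneg (v i))).1 hRz.symm i (Finset.mem_univ i)
      simpa [cc, hi] using this
    have hp0 : p = 0 := Finset.sum_eq_zero fun i _ => by
      rcases eq_or_ne i i₀ with rfl | hi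
      · simp [av_i₀]
      · simp [hz i hi]
    have hv0 : v i₀ ≠ 0 := fun h => hv (funext fun i => by
      rcases eq_or_ne i i₀ with rfl | hi
      · simpa using h
      · simpa using hz i hi)
    rw [hp0, ← hRz]
    have : P.F (sq i₀ x) * v i₀ ≠ 0 := mul_ne_zero hF.ne' hv0
    have := pow_two_pos_of_ne_zero this
    simp only [mul_zero, sub_zero]
    nlinarith

/-! ### The equation -/

lemma affineW_sol (hn : 2 ≤ n) :
    affineW (sol P i₀) = fun y => G P i₀ y ^ (((n : ℝ) + 1) / 2) * P.H (sq i₀ y) := by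
  funext x
  have hG := G_pos P i₀ x
  have hX : 0 ≤ P.F₁ (sq i₀ x) ^ (n - 2) * E P i₀ x :=
    mul_nonneg (pow_nonneg (P.F₁_pos _ (sq_nonneg' i₀ x)).le _) (E_pos P i₀ x).le
  have hd : (hessian (sol P i₀) x).det
      = G P i₀ x ^ (-(((n : ℝ) + 2) / 2)) * (P.F₁ (sq i₀ x) ^ (n - 2) * E P i₀ x) := by
    rw [hessian_sol_eq, Matrix.det_smul, Fintype.card_fin,
      (det_Mm P i₀ x).resolve_right (by omega)]
    have : G P i₀ x ^ (-(((n : ℝ) + 2) / 2))
        = (G P i₀ x ^ (1 / 2 : ℝ) / G P i₀ x) ^ n / G P i₀ x := by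
      rw [← Real.rpow_sub_one hG.ne', ← Real.rpow_natCast, ← Real.rpow_mul hG.le,
        ← Real.rpow_sub_one hG.ne']
      congr 1
      ring
    rw [this]
    ring
  rw [affineW, hd, Real.mul_rpow (Real.rpow_nonneg hG.le _) hX, ← Real.rpow_mul hG.le,
    P.H_eq _ (sq_nonneg' i₀ x)]
  unfold E theta
  congr 2
  field_simp

lemma sum_N_outer (x : Fin n → ℝ) (u v : Fin n → ℝ) :
    ∑ i, ∑ j, N P i₀ x i j * (u i * v j) = ∑ j, u j * (v j / dd P i₀ x j)
      - bet P i₀ x * (∑ k, u k * av i₀ x k) * (∑ k, v k * av i₀ x k)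
      + cof P i₀ x * (∑ k, u k * rv P i₀ x k) * (∑ k, v k * rv P i₀ x k) := by
  rw [Finset.sum_comm]
  have : ∀ j, ∑ i, N P i₀ x i j * (u i * v j) = v j * ∑ k, u k * N P i₀ x k j := fun j => by
    rw [Finset.mul_sum]; exact Finset.sum_congr rfl fun i _ => by ring
  rw [Finset.sum_congr rfl fun j _ => this j]
  simp only [sum_mul_N]
  have h2 : ∀ j, v j * (u j / dd P i₀ x j - bet P i₀ x * av i₀ x j * (∑ k, u k * av i₀ x k)
        + cof P i₀ x * rv P i₀ x j * (∑ k, u k * rv P i₀ x k))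
      = u j * (v j / dd P i₀ x j)
        - bet P i₀ x * (∑ k, u k * av i₀ x k) * (v j * av i₀ x j)
        + cof P i₀ x * (∑ k, u k * rv P i₀ x k) * (v j * rv P i₀ x j) := fun j => by ring
  rw [Finset.sum_congr rfl fun j _ => h2 j, Finset.sum_add_distrib, Finset.sum_sub_distrib,
    ← Finset.mul_sum, ← Finset.mul_sum]

lemma sum_N_diag (x : Fin n → ℝ) (f : Fin n → ℝ) :
    ∑ i, ∑ j, N P i₀ x i j * (if i = j then f j else 0) = ∑ i, f i / dd P i₀ x i
      - bet P i₀ x * (∑ i, f i * (av i₀ x i * av i₀ x i))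
      + cof P i₀ x * (∑ i, f i * (rv P i₀ x i * rv P i₀ x i)) := by
  simp only [mul_ite, mul_zero, Finset.sum_ite_eq, Finset.mem_univ, if_true]
  rw [Finset.mul_sum, Finset.mul_sum, ← Finset.sum_sub_distrib, ← Finset.sum_add_distrib]
  exact Finset.sum_congr rfl fun i _ => by simp only [N, if_true]; ring

lemma isAffineMaximalAt_sol (hn : 2 ≤ n) (x : Fin n → ℝ) : IsAffineMaximalAt (sol P i₀) x := by
  set q := ((n : ℝ) + 1) / 2 with hq
  have hW := hessian_GqK P i₀ q P.hasDeriv_H P.hasDeriv_H₁ x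
  have hs := sq_nonneg' i₀ x
  have h1 := (P.F₁_pos _ hs).ne'
  have h12 : P.F₁ (sq i₀ x) + 2 * sq i₀ x * P.F₂ (sq i₀ x) ≠ 0 :=
    (add_pos_of_pos_of_nonneg (P.F₁_pos _ hs)
      (mul_nonneg (by positivity) (P.F₂_nonneg _ hs))).ne'
  have hE := (E_pos P i₀ x).ne'
  have hG := (G_pos P i₀ x).ne'
  have saa : ∑ j, av i₀ x j * (av i₀ x j / dd P i₀ x j) = sq i₀ x / P.F₁ (sq i₀ x) := by
    simp only [av_div_dd, ← mul_div_assoc, ← Finset.sum_div, sum_av_av]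
  have sga : ∑ j, gv P i₀ x j * (av i₀ x j / dd P i₀ x j) = sq i₀ x := by
    simp only [av_div_dd, ← mul_div_assoc, ← Finset.sum_div, sum_gv_av]
    field_simp
  have sag : ∑ j, av i₀ x j * (gv P i₀ x j / dd P i₀ x j) = sq i₀ x := by
    rw [← sga]; exact Finset.sum_congr rfl fun i _ => by ring
  have sgg : ∑ j, gv P i₀ x j * (gv P i₀ x j / dd P i₀ x j)
      = P.F₁ (sq i₀ x) * sq i₀ x + x i₀ ^ 2 := by
    simp only [gv_div_dd, mul_add, Finset.sum_add_distrib, sum_gv_av]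
    rw [Finset.sum_congr rfl (g := fun i => ee i₀ i * (gv P i₀ x i * x i₀))
      (fun i _ => by ring), sum_ee_mul]
    simp [gv, ee, av_i₀]; ring
  have sg2 : ∑ k, gv P i₀ x k * gv P i₀ x k
      = P.F₁ (sq i₀ x) ^ 2 * sq i₀ x + x i₀ ^ 2 := by
    have : ∀ k, gv P i₀ x k * gv P i₀ x k = P.F₁ (sq i₀ x) * (gv P i₀ x k * av i₀ x k)
        + ee i₀ k * (x i₀ * gv P i₀ x k) := fun k => by unfold gv; ring
    rw [Finset.sum_congr rfl fun i _ => this i, Finset.sum_add_distrib, ← Finset.mul_sum,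
      sum_gv_av, sum_ee_mul]
    simp [gv, ee, av_i₀]; ring
  have dd1 : ∑ i, dd P i₀ x i / dd P i₀ x i = n := by
    simp [div_self (dd_pos P i₀ x _).ne']
  have dd2 : ∑ i, dd P i₀ x i * (av i₀ x i * av i₀ x i) = P.F₁ (sq i₀ x) * sq i₀ x := by
    rw [Finset.sum_congr rfl (g := fun i => P.F₁ (sq i₀ x) * (av i₀ x i * av i₀ x i))
      (fun i _ => by unfold dd av cc; split <;> simp), ← Finset.mul_sum, sum_av_av]
  have dd3 : ∑ i, dd P i₀ x i * (rv P i₀ x i * rv P i₀ x i)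
      = gam P i₀ x ^ 2 * P.F₁ (sq i₀ x) * sq i₀ x + x i₀ ^ 2 := by
    rw [Finset.sum_congr rfl (g := fun i =>
      gam P i₀ x ^ 2 * P.F₁ (sq i₀ x) * (av i₀ x i * av i₀ x i) + ee i₀ i * x i₀ ^ 2)
      (fun i _ => by rw [rv_eq]; unfold dd ee av cc; split <;> simp <;> ring),
      Finset.sum_add_distrib, ← Finset.mul_sum, sum_av_av, sum_ee_mul]
  have cc1 : ∑ i, cc i₀ i / dd P i₀ x i = ((n : ℝ) - 1) / P.F₁ (sq i₀ x) := by
    simp only [cc_div_dd, ← Finset.sum_div, sum_cc]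
  have cc2 : ∑ i, cc i₀ i * (av i₀ x i * av i₀ x i) = sq i₀ x := by
    rw [← sum_av_av]
    exact Finset.sum_congr rfl fun i _ => by unfold av cc; split <;> simp
  have cc3 : ∑ i, cc i₀ i * (rv P i₀ x i * rv P i₀ x i) = gam P i₀ x ^ 2 * sq i₀ x := by
    rw [← sum_av_av, Finset.mul_sum]
    exact Finset.sum_congr rfl fun i _ => by
      rw [rv_eq]; unfold ee av cc; split <;> simp <;> ring
  have hsum : ∑ i, ∑ j, N P i₀ x i j * hessian (affineW (sol P i₀)) x i j = 0 := by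
    rw [affineW_sol P i₀ hn]
    simp only [← hq, hW]
    have hsplit : ∀ i j (a b c d e f : ℝ) (A : Fin n → ℝ) (B : Fin n → ℝ),
        N P i₀ x i j * (a * (gv P i₀ x i * gv P i₀ x j)
          + b * ((if i = j then A j else 0) + f * (av i₀ x i * av i₀ x j))
          + c * (gv P i₀ x i * av i₀ x j + av i₀ x i * gv P i₀ x j)
          + d * (if i = j then B j else 0) + e * (av i₀ x i * av i₀ x j))
        = a * (N P i₀ x i j * (gv P i₀ x i * gv P i₀ x j))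
          + b * (N P i₀ x i j * (if i = j then A j else 0))
          + c * (N P i₀ x i j * (gv P i₀ x i * av i₀ x j))
          + c * (N P i₀ x i j * (av i₀ x i * gv P i₀ x j))
          + d * (N P i₀ x i j * (if i = j then B j else 0))
          + (e + b * f) * (N P i₀ x i j * (av i₀ x i * av i₀ x j)) := fun i j _ _ _ _ _ _ _ _ => by
      ring
    rw [Finset.sum_congr rfl fun i _ => Finset.sum_congr rfl fun j _ => hsplit i j _ _ _ _ _ _
      (fun k => dd P i₀ x k) (fun k => cc i₀ k)]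
    simp only [Finset.sum_add_distrib, ← Finset.mul_sum]
    rw [sum_N_outer, sum_N_outer, sum_N_outer, sum_N_outer, sum_N_diag, sum_N_diag]
    simp only [saa, sga, sag, sgg, sum_av_av, sum_gv_av, sum_av_rv, sum_gv_rv, dd1, dd2, dd3,
      cc1, cc2, cc3]
    have hode := P.ode _ hs
    have hscale : ∀ z : ℝ, z * (E P i₀ x * G P i₀ x / G P i₀ x ^ q) = 0 → z = 0 := fun z hz =>
      (mul_eq_zero.1 hz).resolve_right
        (div_ne_zero (mul_ne_zero hE hG) (Real.rpow_pos_of_pos (G_pos P i₀ x) _).ne')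
    apply hscale
    have hGq := (Real.rpow_pos_of_pos (G_pos P i₀ x) q).ne'
    generalize G P i₀ x ^ q = Q at hGq ⊢
    rw [hq]
    unfold bet cof gam E G at *
    unfold eFun at *
    clear hW saa sga sag sgg sg2 dd1 dd2 dd3 cc1 cc2 cc3 hscale hsplit
    generalize sq i₀ x = t at *
    generalize P.F t = f at *
    generalize P.F₁ t = a at *
    generalize P.F₂ t = b at *
    generalize P.H t = h₀ at *
    generalize P.H₁ t = h at *
    generalize P.H₂ t = h₂ at *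
    generalize x i₀ = z at *
    generalize (n : ℝ) = m at *
    generalize hD : a + 2 * t * b = D at *
    generalize hε : f * a + 2 * t * f * b - t * a ^ 2 = ε at *
    field_simp at hode ⊢
    subst hD hε
    linear_combination (4 * (a + 2 * t * b) * (z ^ 2 + f) ^ 2) * hode
  unfold IsAffineMaximalAt
  rw [inv_hessian_sol]
  simp only [Matrix.smul_apply, Matrix.of_apply, smul_eq_mul]
  rw [← mul_eq_zero_of_right ((hessian (sol P i₀) x).det
    * (G P i₀ x ^ (1 / 2 : ℝ) / G P i₀ x)⁻¹) hsum, Finset.mul_sum]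
  refine Finset.sum_congr rfl fun i _ => ?_
  rw [Finset.mul_sum]
  exact Finset.sum_congr rfl fun j _ => by ring

lemma contDiff_sol : ContDiff ℝ ((⊤ : ℕ∞) : WithTop ℕ∞) (sol P i₀) := by
  refine contDiff_infty.2 fun k => ?_
  have hc : ∀ i : Fin n, ContDiff ℝ (k : WithTop ℕ∞) fun x : Fin n → ℝ => x i :=
    fun i => (pr i).contDiff
  have hs : ContDiff ℝ (k : WithTop ℕ∞) (sq i₀) :=
    ContDiff.sum fun i _ => contDiff_const.mul ((hc i).pow 2)
  exact (((hc i₀).pow 2).add ((P.smooth k).comp_contDiff hs fun x => sq_nonneg' i₀ x))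
    |>.rpow_const_of_ne fun x => (G_pos P i₀ x).ne'

lemma sol_line (t : ℝ) : sol P i₀ (t • Pi.single i₀ 1) = Real.sqrt (t ^ 2 + 1) := by
  have : sq i₀ (t • Pi.single i₀ 1 : Fin n → ℝ) = 0 :=
    Finset.sum_eq_zero fun i _ => by
      rcases eq_or_ne i i₀ with rfl | hi
      · simp [cc]
      · simp [hi]
  simp [sol, G, this, P.F_zero, Real.sqrt_eq_rpow]

lemma sol_not_quadratic :
    ¬ ∃ (A : Matrix (Fin n) (Fin n) ℝ) (b : Fin n → ℝ) (c : ℝ),
      ∀ x, sol P i₀ x = x ⬝ᵥ (A *ᵥ x) + b ⬝ᵥ x + c := by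
  rintro ⟨A, b, c, h⟩
  have key : ∀ t : ℝ, Real.sqrt (t ^ 2 + 1) = A i₀ i₀ * t ^ 2 + b i₀ * t + c := fun t => by
    rw [← sol_line P i₀ t, h]
    simp [Matrix.mulVec_smul]
    ring
  have h0 := key 0
  have h1 := key 1
  have hm := key (-1)
  have h2 := key 2
  norm_num at h0 h1 hm h2
  have s2 := Real.sq_sqrt (show (0 : ℝ) ≤ 2 by norm_num)
  have s5 := Real.sq_sqrt (show (0 : ℝ) ≤ 5 by norm_num)
  have h5 : Real.sqrt 5 = 4 * Real.sqrt 2 - 3 := by linarith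
  rw [h5] at s5
  have hr : Real.sqrt 2 = 3 / 2 := by nlinarith
  rw [hr] at s2
  norm_num at s2

end Calc

/-- A profile gives an entire nonquadratic smooth strictly convex affine maximal graph. -/
theorem exists_entire_affineMaximal {n : ℕ} (hn : 2 ≤ n) (P : Profile n) :
    ∃ u : (Fin n → ℝ) → ℝ, ContDiff ℝ ((⊤ : ℕ∞) : WithTop ℕ∞) u ∧
      (∀ x, (hessian u x).PosDef) ∧ (∀ x, IsAffineMaximalAt u x) ∧
      ¬ ∃ (A : Matrix (Fin n) (Fin n) ℝ) (b : Fin n → ℝ) (c : ℝ),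
        ∀ x, u x = x ⬝ᵥ (A *ᵥ x) + b ⬝ᵥ x + c :=
  have i₀ : Fin n := ⟨0, by omega⟩
  ⟨Calc.sol P i₀, Calc.contDiff_sol P i₀, Calc.posDef_hessian_sol P i₀,
    Calc.isAffineMaximalAt_sol P i₀ hn, Calc.sol_not_quadratic P i₀⟩

end Vale.Agent.P252
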