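import Vale.Agent.P252.Fixed

/-!
# Smoothness of the fixed point up to the origin
-/

namespace Vale.Agent.P252

open MeasureTheory intervalIntegral Set Filter
open scoped Topology Interval

/-- A continuous function with continuous derivative on `(0,∞)` is differentiable up to `0`. -/
theorem within_of_deriv {f f' : ℝ → ℝ} (hf : Continuous f) (hf' : Continuous f')
    (h : ∀ s, 0 < s → HasDerivAt f (f' s) s) {s : ℝ} (hs : 0 ≤ s) :
    HasDerivWithinAt f (f' s) (Ici 0) s := by
  rcases hs.eq_or_lt with h0 | h0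
  · subst h0
    refine hasDerivWithinAt_Ici_of_tendsto_deriv (s := Ioi (0:ℝ))
      (fun x hx => (h x hx).differentiableAt.differentiableWithinAt) hf.continuousWithinAt
      self_mem_nhdsWithin ?_
    have hT : Tendsto f' (𝓝[>] (0:ℝ)) (𝓝 (f' 0)) := hf'.continuousWithinAt
    exact hT.congr' (eventually_nhdsWithin_of_forall fun x hx => (h x hx).deriv.symm)
  · exact (h s h0).hasDerivWithinAt

theorem contDiffOn_succ_of {f f' : ℝ → ℝ} {k : ℕ}
    (h : ∀ s, 0 ≤ s → HasDerivWithinAt f (f' s) (Ici 0) s) (h' : ContDiffOn ℝ k f' (Ici 0)) :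
    ContDiffOn ℝ (k + 1 : ℕ) f (Ici 0) := by
  rw [Nat.cast_add, Nat.cast_one, contDiffOn_succ_iff_derivWithin (uniqueDiffOn_Ici 0)]
  refine ⟨fun x hx => (h x hx).differentiableWithinAt, by simp, ?_⟩
  exact h'.congr fun x hx => (h x hx).derivWithin ((uniqueDiffOn_Ici 0) x hx)

/-- The averaging operator `J`. -/
noncomputable def Jop (l : ℝ) (g : ℝ → ℝ) (s : ℝ) : ℝ :=
  ∫ τ in (0:ℝ)..1, τ ^ l * g (max s 0 * τ)

theorem Jop_cont {l : ℝ} (hl : 0 ≤ l) {g : ℝ → ℝ} (hg : Continuous g) :
    Continuous (Jop l g) := by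
  have := Real.continuous_rpow_const hl
  apply intervalIntegral.continuous_parametric_intervalIntegral_of_continuous'
  fun_prop

theorem rpow_mul_Jop {l : ℝ} (g : ℝ → ℝ) {s : ℝ} (hs : 0 < s) :
    s ^ (l + 1) * Jop l g s = ∫ σ in (0:ℝ)..s, σ ^ l * g σ := by
  have h := intervalIntegral.mul_integral_comp_mul_left (a := (0:ℝ)) (b := 1)
    (f := fun σ => σ ^ l * g σ) (c := s)
  simp only [mul_zero, mul_one] at h
  rw [← h]
  unfold Jop
  rw [max_eq_left hs.le, ← intervalIntegral.integral_const_mul,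
    ← intervalIntegral.integral_const_mul]
  refine intervalIntegral.integral_congr fun τ hτ => ?_
  rw [uIcc_of_le zero_le_one] at hτ
  rw [Real.mul_rpow hs.le hτ.1, Real.rpow_add hs, Real.rpow_one]
  ring

/-- Representation of the regular solution of `s z' + l z = s g`. -/
theorem eq_mul_Jop {l : ℝ} (hl : 0 < l) {z g : ℝ → ℝ} (hz : Continuous z) (hg : Continuous g)
    (hz0 : z 0 = 0) (h : ∀ s, 0 < s → HasDerivAt z (g s - l * (z s / s)) s) {s : ℝ}
    (hs : 0 ≤ s) : z s = s * Jop l g s := by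
  rcases hs.eq_or_lt with h0 | h0
  · subst h0; simp [hz0]
  · have hc := Real.continuous_rpow_const hl.le
    have hd : ∀ x ∈ Ioo (0:ℝ) s, HasDerivAt (fun x => x ^ l * z x) (x ^ l * g x) x := by
      intro x hx
      refine ((Real.hasDerivAt_rpow_const (Or.inl hx.1.ne')).mul (h x hx.1)).congr_deriv ?_
      rw [Real.rpow_sub hx.1, Real.rpow_one]
      have := hx.1.ne'
      field_simp; ring
    have h1 := intervalIntegral.integral_eq_sub_of_hasDerivAt_of_le hs
      (by fun_prop : Continuous fun x => x ^ l * z x).continuousOn hd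
      (Continuous.intervalIntegrable (by fun_prop) _ _)
    rw [← rpow_mul_Jop g h0, hz0, mul_zero, sub_zero, Real.rpow_add h0, Real.rpow_one] at h1
    have : 0 < s ^ l := Real.rpow_pos_of_pos h0 l
    nlinarith

theorem Jop_hasDeriv {l : ℝ} (hl : 0 ≤ l) {g g' : ℝ → ℝ} (hg : Continuous g)
    (hg' : Continuous g') (h : ∀ s, 0 ≤ s → HasDerivWithinAt g (g' s) (Ici 0) s) {s : ℝ}
    (hs : 0 ≤ s) : HasDerivWithinAt (Jop l g) (Jop (l + 1) g' s) (Ici 0) s := by
  refine within_of_deriv (Jop_cont hl hg) (Jop_cont (by linarith) hg') (fun x hx => ?_) hs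
  have hc := Real.continuous_rpow_const hl
  have hc' := Real.continuous_rpow_const (show 0 ≤ l + 1 by linarith)
  have hP : HasDerivAt (fun y => (∫ σ in (0:ℝ)..y, σ ^ l * g σ) / y ^ (l + 1))
      ((x ^ l * g x * x ^ (l + 1) - (∫ σ in (0:ℝ)..x, σ ^ l * g σ) * ((l + 1) * x ^ (l + 1 - 1)))
        / (x ^ (l + 1)) ^ 2) x :=
    (intervalIntegral.integral_hasDerivAt_right (Continuous.intervalIntegrable (by fun_prop) _ _)
      ((by fun_prop : Continuous fun σ => σ ^ l * g σ).stronglyMeasurableAtFilter _ _)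
      (by fun_prop : Continuous fun σ => σ ^ l * g σ).continuousAt).div
      (Real.hasDerivAt_rpow_const (Or.inl hx.ne')) (Real.rpow_pos_of_pos hx _).ne'
  have heq : Jop l g =ᶠ[𝓝 x] fun y => (∫ σ in (0:ℝ)..y, σ ^ l * g σ) / y ^ (l + 1) := by
    filter_upwards [lt_mem_nhds hx] with y hy
    rw [← rpow_mul_Jop g hy, mul_div_cancel_left₀ _ (Real.rpow_pos_of_pos hy _).ne']
  refine (hP.congr_of_eventuallyEq heq).congr_deriv ?_
  have hd : ∀ y ∈ Ioo (0:ℝ) x, HasDerivAt (fun y => y ^ (l + 1) * g y)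
      ((l + 1) * (y ^ l * g y) + y ^ (l + 1) * g' y) y := by
    intro y hy
    refine ((Real.hasDerivAt_rpow_const (Or.inl hy.1.ne')).mul
      ((h y hy.1.le).hasDerivAt (Ici_mem_nhds hy.1))).congr_deriv ?_
    rw [add_sub_cancel_right]; ring
  have h1 := intervalIntegral.integral_eq_sub_of_hasDerivAt_of_le hx.le
    (by fun_prop : Continuous fun y => y ^ (l + 1) * g y).continuousOn hd
    (Continuous.intervalIntegrable (by fun_prop) _ _)
  rw [intervalIntegral.integral_add (Continuous.intervalIntegrable (by fun_prop) _ _)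
    (Continuous.intervalIntegrable (by fun_prop) _ _), intervalIntegral.integral_const_mul,
    ← rpow_mul_Jop g hx, ← rpow_mul_Jop g' hx, Real.zero_rpow (by linarith), zero_mul,
    sub_zero] at h1
  rw [← rpow_mul_Jop g hx, add_sub_cancel_right]
  have e2 : x ^ (l + 1 + 1) = x ^ (l + 1) * x := by rw [Real.rpow_add hx, Real.rpow_one]
  have e1 : x ^ (l + 1) = x ^ l * x := by rw [Real.rpow_add hx, Real.rpow_one]
  rw [e2] at h1
  have hp : 0 < x ^ l := Real.rpow_pos_of_pos hx l
  rw [e1] at h1 ⊢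
  rw [div_eq_iff (by positivity)]
  linear_combination (-(x ^ l)) * h1

theorem Jop_contDiff : ∀ (k : ℕ) {l : ℝ}, 0 ≤ l → ∀ {g : ℝ → ℝ}, Continuous g →
    ContDiffOn ℝ k g (Ici 0) → ContDiffOn ℝ k (Jop l g) (Ici 0) := by
  intro k
  induction k with
  | zero =>
    intro l hl g hg _
    rw [Nat.cast_zero, contDiffOn_zero]
    exact (Jop_cont hl hg).continuousOn
  | succ k ih =>
    intro l hl g hg hgk
    set g' := fun s => derivWithin g (Ici 0) (max s 0) with hg'
    have h2 := hgk
    rw [Nat.cast_add, Nat.cast_one,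
      contDiffOn_succ_iff_derivWithin (uniqueDiffOn_Ici 0)] at h2
    have hg'c : Continuous g' :=
      h2.2.2.continuousOn.comp_continuous (continuous_id.max continuous_const)
        fun s => le_max_right s (0:ℝ)
    have hd : ∀ s, 0 ≤ s → HasDerivWithinAt g (g' s) (Ici 0) s := fun s hs => by
      simp only [hg', max_eq_left hs]; exact (h2.1 s hs).hasDerivWithinAt
    refine contDiffOn_succ_of (fun s hs => Jop_hasDeriv hl hg hg'c hd hs)
      (ih (by linarith) hg'c (h2.2.2.congr fun s hs => ?_))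
    simp only [hg', max_eq_left hs.out]

/-- The regular solution on the half line with all the properties used later. -/
structure Sol (ν : ℝ) where
  p : ℝ → ℝ
  r : ℝ → ℝ
  α : ℝ → ℝ
  p' : ℝ → ℝ
  r' : ℝ → ℝ
  reg : ∀ s, Reg ν (p s) (r s)
  α_pos : ∀ s, 0 < α s
  α_cont : Continuous α
  α_zero : α 0 = 1
  smooth : ∀ k : ℕ, ContDiffOn ℝ k p (Ici 0) ∧ ContDiffOn ℝ k r (Ici 0) ∧
    ContDiffOn ℝ k α (Ici 0)
  hα : ∀ s, 0 ≤ s → HasDerivWithinAt α (-(α s ^ 2 * (1 - r s / ν) / 2)) (Ici 0) s
  hp : ∀ s, 0 ≤ s → HasDerivWithinAt p (p' s) (Ici 0) s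
  hr : ∀ s, 0 ≤ s → HasDerivWithinAt r (r' s) (Ici 0) s
  eq_p : ∀ s, 0 ≤ s → s * p' s = fieldP ν (s * α s) (p s) (r s)
  eq_r : ∀ s, 0 ≤ s → s * r' s = fieldR ν (s * α s) (p s) (r s)

theorem avg_deriv {N : ℕ} (hN : 1 ≤ N) {g z : ℝ → ℝ} (hg : Continuous g)
    (hz : ∀ s, 0 ≤ s → avg N g s = z s) {s : ℝ} (hs : 0 < s) :
    HasDerivAt z ((N : ℝ) * (g s - z s) / s) s := by
  have key : ∀ x, 0 < x → x ^ N * z x = ∫ σ in (0:ℝ)..x, (N:ℝ) * σ ^ (N - 1) * g σ := by
    intro x hx
    have h := intervalIntegral.mul_integral_comp_mul_left (a := (0:ℝ)) (b := 1)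
      (f := fun σ => (N:ℝ) * σ ^ (N - 1) * g σ) (c := x)
    simp only [mul_zero, mul_one] at h
    rw [← h, ← hz x hx.le]
    unfold avg
    rw [max_eq_left hx.le, ← intervalIntegral.integral_const_mul,
      ← intervalIntegral.integral_const_mul]
    refine intervalIntegral.integral_congr fun τ _ => ?_
    show x ^ N * _ = _
    rw [mul_pow]
    obtain ⟨k, rfl⟩ := Nat.exists_eq_add_of_le hN
    rw [show 1 + k - 1 = k by omega, pow_add, pow_one]
    ring
  have hP : HasDerivAt (fun x => (∫ σ in (0:ℝ)..x, (N:ℝ) * σ ^ (N - 1) * g σ) / x ^ N)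
      (((N:ℝ) * s ^ (N - 1) * g s * s ^ N
        - (∫ σ in (0:ℝ)..s, (N:ℝ) * σ ^ (N - 1) * g σ) * ((N:ℝ) * s ^ (N - 1))) / (s ^ N) ^ 2) s :=
    ((by fun_prop : Continuous fun σ => (N:ℝ) * σ ^ (N - 1) * g σ).integral_hasStrictDerivAt
      0 s).hasDerivAt.div (hasDerivAt_pow N s) (pow_pos hs N).ne'
  have heq : z =ᶠ[𝓝 s] fun x => (∫ σ in (0:ℝ)..x, (N:ℝ) * σ ^ (N - 1) * g σ) / x ^ N := by
    filter_upwards [lt_mem_nhds hs] with x hx
    rw [← key x hx, mul_div_cancel_left₀ _ (pow_pos hx N).ne']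
  refine (hP.congr_of_eventuallyEq heq).congr_deriv ?_
  rw [← key s hs]
  obtain ⟨k, rfl⟩ := Nat.exists_eq_add_of_le hN
  rw [show 1 + k - 1 = k by omega, pow_add, pow_one]
  have := hs.ne'
  field_simp

theorem exists_sol (n : ℕ) (hn : 10 ≤ n) : Nonempty (Sol ((n:ℝ) - 1)) := by
  set ν : ℝ := (n:ℝ) - 1 with hνdef
  have hν : 9 ≤ ν := by
    have : (10:ℝ) ≤ n := by exact_mod_cast hn
    linarith
  have hν0 : 0 < ν := by linarith
  set N : ℕ := 20 * (n - 1) with hNdef
  have hN : 1 ≤ N := by omega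
  have hNν : (N:ℝ) = 20 * ν := by
    rw [hNdef, hνdef]; push_cast [show 1 ≤ n by omega]; ring
  clear_value ν N
  clear hνdef hNdef
  obtain ⟨y, hy, hfix⟩ := exists_fixed hν N hN
  set p := fun s => (y s).1 with hpdef
  set r := fun s => 8 * (y s).2 with hrdef
  set α := alphaFun ν y with hαdef
  have hpc : Continuous p := hy.cont.fst
  have hrc : Continuous r := hy.cont.snd.const_mul 8
  have hαc : Continuous α := hy.alpha_cont hν
  have hc := hy.stepY_cont hν
  have ha : ∀ s, 0 ≤ s → aFun ν y s = s * α s := fun s hs => by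
    simp [aFun, hαdef, max_eq_left hs]
  -- values at the origin
  have h00 := hfix 0 le_rfl
  have e1 : stepP ν 0 (p 0) (r 0) = p 0 := by
    have := congrArg Prod.fst h00
    simpa [Tmap, avg, avg_weight hN, intervalIntegral.integral_mul_const, ha 0 le_rfl,
      stepY, hpdef, hrdef] using this
  have hp0 : p 0 = 1 := by
    have h := e1
    unfold stepP fieldP at h
    field_simp at h
    nlinarith
  have hr0 : r 0 = rInit ν := by
    have h : stepR ν 0 (p 0) (r 0) / 8 = (y 0).2 := by
      have := congrArg Prod.snd h00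
      simpa [Tmap, avg, avg_weight hN, intervalIntegral.integral_mul_const, ha 0 le_rfl,
        stepY, hpdef, hrdef] using this
    have h' : stepR ν 0 (p 0) (r 0) = r 0 := by simp only [hrdef] at h ⊢; linarith
    unfold stepR fieldR at h'
    have h2 := two_cCoef_sub hν
    rw [hp0, mul_one, h2] at h'
    have : (ν + 2) * (rInit ν - r 0) = 0 := by
      field_simp at h'
      linarith
    rcases mul_eq_zero.1 this with h3 | h3 <;> linarith
  -- the equations away from the origin
  have hdp : ∀ s, 0 < s → HasDerivAt p (fieldP ν (s * α s) (p s) (r s) / s) s := fun s hs => by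
    have h := avg_deriv hN (z := p) hc.fst (fun x hx => congrArg Prod.fst (hfix x hx)) hs
    refine h.congr_deriv ?_
    simp only [stepY, stepP, ha s hs.le, hNν, hpdef, hrdef]
    field_simp; ring
  have hdr : ∀ s, 0 < s → HasDerivAt r (fieldR ν (s * α s) (p s) (r s) / s) s := fun s hs => by
    have h := avg_deriv hN (z := fun x => (y x).2) hc.snd
      (fun x hx => congrArg Prod.snd (hfix x hx)) hs
    refine (h.const_mul 8).congr_deriv ?_
    simp only [stepY, stepR, ha s hs.le, hNν, hpdef, hrdef]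
    field_simp; ring
  -- representation
  have hfR : ∀ a u v : ℝ, fieldR ν a u v
      = (2 * cCoef ν * (u - 1) + (ν + 2) * rInit ν - (ν + 2) * v + a * Gr ν u v) / 2 := by
    intro a u v
    rw [fieldR, ← two_cCoef_sub hν]; ring
  set g1 := fun s => α s * Gp ν (p s) (r s) / 2 with hg1
  have hg1c : Continuous g1 := by simp only [hg1]; unfold Gp; fun_prop
  have hJ1 := Jop_cont (show 0 ≤ ν / 2 by linarith) hg1c
  have hzp : ∀ s, 0 ≤ s → p s - 1 = s * Jop (ν / 2) g1 s :=
    fun s hs => eq_mul_Jop (z := fun x => p x - 1) (by linarith) (by fun_prop) hg1c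
      (by simp [hp0]) (fun x hx => by
        refine ((hdp x hx).sub_const 1).congr_deriv ?_
        simp only [hg1, fieldP]; field_simp; ring) hs
  set g2 := fun s => cCoef ν * Jop (ν / 2) g1 s + α s * Gr ν (p s) (r s) / 2 with hg2
  have hg2c : Continuous g2 := by simp only [hg2]; unfold Gr; fun_prop
  have hJ2 := Jop_cont (show 0 ≤ (ν + 2) / 2 by linarith) hg2c
  have hzr : ∀ s, 0 ≤ s → r s - rInit ν = s * Jop ((ν + 2) / 2) g2 s :=
    fun s hs => eq_mul_Jop (z := fun x => r x - rInit ν) (by linarith) (by fun_prop) hg2c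
      (by simp [hr0]) (fun x hx => by
        refine ((hdr x hx).sub_const _).congr_deriv ?_
        have e := hzp x hx.le
        simp only [hg2, hfR]
        field_simp
        linear_combination (2 * cCoef ν) * e) hs
  set p' := fun s => g1 s - ν / 2 * Jop (ν / 2) g1 s with hp'
  set r' := fun s => g2 s - (ν + 2) / 2 * Jop ((ν + 2) / 2) g2 s with hr'
  have hP : ∀ s, 0 ≤ s → HasDerivWithinAt p (p' s) (Ici 0) s := fun s hs =>
    within_of_deriv hpc (by simp only [hp']; fun_prop) (fun x hx => (hdp x hx).congr_deriv (by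
      have e := hzp x hx.le
      simp only [hp', hg1, fieldP] at *
      field_simp
      linear_combination (-ν) * e)) hs
  have hR : ∀ s, 0 ≤ s → HasDerivWithinAt r (r' s) (Ici 0) s := fun s hs =>
    within_of_deriv hrc (by simp only [hr']; fun_prop) (fun x hx => (hdr x hx).congr_deriv (by
      have e := hzp x hx.le
      have e' := hzr x hx.le
      have eg : g2 x = cCoef ν * Jop (ν / 2) g1 x + α x * Gr ν (p x) (r x) / 2 := rfl
      simp only [hr', hfR, eg]
      generalize Jop ((ν + 2) / 2) g2 x = J2 at *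
      field_simp
      linear_combination (2 * cCoef ν) * e - (ν + 2) * e')) hs
  have hA : ∀ s, 0 ≤ s →
      HasDerivWithinAt α (-(α s ^ 2 * (1 - r s / ν) / 2)) (Ici 0) s := fun s hs => by
    have hh : HasDerivAt (hFun ν y) ((1 - r s / ν) / 2) s := by
      exact (hy.integrand_cont.integral_hasStrictDerivAt 0 s).hasDerivAt
    have h1 := hy.hFun_nonneg hν hs
    have hd : HasDerivWithinAt (fun x => 1 / (1 + hFun ν y x))
        (-(α s ^ 2 * (1 - r s / ν) / 2)) (Ici 0) s := by
      refine ((hasDerivWithinAt_const s _ (1:ℝ)).div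
        (hh.hasDerivWithinAt.const_add 1) (by linarith)).congr_deriv ?_
      simp only [hαdef, alphaFun, max_eq_left hs]
      field_simp; ring
    exact hd.congr (fun x hx => by simp only [hαdef, alphaFun, max_eq_left hx.out])
      (by simp only [hαdef, alphaFun, max_eq_left hs])
  have hsm : ∀ k : ℕ, ContDiffOn ℝ k p (Ici 0) ∧ ContDiffOn ℝ k r (Ici 0) ∧
      ContDiffOn ℝ k α (Ici 0) := by
    intro k
    induction k with
    | zero =>
      simp only [Nat.cast_zero, contDiffOn_zero]
      exact ⟨hpc.continuousOn, hrc.continuousOn, hαc.continuousOn⟩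
    | succ k ih =>
      obtain ⟨ip, ir, iα⟩ := ih
      have i1 : ContDiffOn ℝ k g1 (Ici 0) := by simp only [hg1]; unfold Gp; fun_prop
      have j1 := Jop_contDiff k (show 0 ≤ ν / 2 by linarith) hg1c i1
      have i2 : ContDiffOn ℝ k g2 (Ici 0) := by simp only [hg2]; unfold Gr; fun_prop
      have j2 := Jop_contDiff k (show 0 ≤ (ν + 2) / 2 by linarith) hg2c i2
      exact ⟨contDiffOn_succ_of hP (by simp only [hp']; fun_prop),
        contDiffOn_succ_of hR (by simp only [hr']; fun_prop),
        contDiffOn_succ_of hA (by fun_prop)⟩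
  refine ⟨{
    p := p
    r := r
    α := α
    p' := p'
    r' := r'
    reg := fun s => hy.mem s
    α_pos := hy.alpha_pos hν
    α_cont := hαc
    α_zero := by simp [hαdef, alphaFun, hFun]
    smooth := hsm
    hα := hA
    hp := hP
    hr := hR
    eq_p := fun s hs => ?_
    eq_r := fun s hs => ?_ }⟩
  · rcases hs.eq_or_lt with h0 | h0
    · subst h0; simp [fieldP, hp0]
    · have := (hdp s h0).unique ((hP s hs).hasDerivAt (Ici_mem_nhds h0))
      rw [← this]; field_simp
  · rcases hs.eq_or_lt with h0 | h0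
    · subst h0
      have h2 := two_cCoef_sub hν
      simp only [fieldR, hp0, hr0, zero_mul, mul_one]
      linarith
    · have := (hdr s h0).unique ((hR s hs).hasDerivAt (Ici_mem_nhds h0))
      rw [← this]; field_simp

end Vale.Agent.P252
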