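import Vale.Agent.P252.Interface
import Vale.Agent.P252.Smooth

/-!
# Existence of profiles for `n ≥ 10`
-/

namespace Vale.Agent.P252

open Set intervalIntegral

/-- A profile exists in every dimension `n ≥ 10`. -/
theorem exists_profile (n : ℕ) (hn : 10 ≤ n) : Nonempty (Profile n) := by
  obtain ⟨S⟩ := exists_sol n hn
  obtain ⟨m, rfl⟩ : ∃ m, n = m + 2 := ⟨n - 2, by omega⟩
  set ν : ℝ := ((m + 2 : ℕ) : ℝ) - 1 with hνdef
  have hm : (m : ℝ) = ν - 1 := by rw [hνdef]; push_cast; ring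
  have hν : 9 ≤ ν := by
    have : (10:ℝ) ≤ ((m + 2 : ℕ) : ℝ) := by exact_mod_cast hn
    rw [hνdef]; linarith
  clear_value ν
  have hν0 : 0 < ν := by linarith
  set E : ℝ → ℝ := fun s => Real.exp (∫ σ in (0:ℝ)..s, S.α σ) with hE
  set η : ℝ → ℝ := fun s => S.r s / ν with hη
  set P : ℝ → ℝ := fun s => 1 + s * S.α s * η s with hP
  set μ : ℝ → ℝ := fun s => 1/2 + S.p s / ν with hμ
  set F₁ : ℝ → ℝ := fun s => S.α s * E s with hF₁
  set F₂ : ℝ → ℝ := fun s => S.α s ^ 2 * (1 + η s) / 2 * E s with hF₂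
  set G : ℝ → ℝ := fun s => S.α s ^ (m + 1) * E s ^ (m + 2) * P s with hG
  set θ : ℝ := theta (m + 2) with hθ
  set H : ℝ → ℝ := fun s => G s ^ (-θ) with hH
  set H₁ : ℝ → ℝ := fun s => -((ν + 1) * μ s * S.α s * H s) with hH₁
  set H₂ : ℝ → ℝ := fun s =>
    -((ν + 1) * (S.p' s / ν * S.α s + μ s * (-(S.α s ^ 2 * (1 - η s) / 2))) * H s)
      - (ν + 1) * μ s * S.α s * H₁ s with hH₂
  have hEp : ∀ s, 0 < E s := fun s => Real.exp_pos _
  have hηp : ∀ s, 0 ≤ η s := fun s =>
    div_nonneg (reg_bounds hν (S.reg s)).2.2.1 hν0.le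
  have hPp : ∀ s, 0 ≤ s → 0 < P s := fun s hs => by
    have := mul_nonneg (mul_nonneg hs (S.α_pos s).le) (hηp s)
    simp only [hP]; linarith
  have hGp : ∀ s, 0 ≤ s → 0 < G s := fun s hs =>
    mul_pos (mul_pos (pow_pos (S.α_pos s) _) (pow_pos (hEp s) _)) (hPp s hs)
  have dE : ∀ s, 0 ≤ s → HasDerivWithinAt E (F₁ s) (Ici 0) s := fun s _ => by
    exact ((S.α_cont.integral_hasStrictDerivAt 0 s).hasDerivAt.exp.congr_deriv
      (by simp only [hF₁, hE]; ring)).hasDerivWithinAt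
  have dF₁ : ∀ s, 0 ≤ s → HasDerivWithinAt F₁ (F₂ s) (Ici 0) s := fun s hs =>
    ((S.hα s hs).mul (dE s hs)).congr_deriv (by simp only [hF₁, hF₂, hη]; ring)
  have dP : ∀ s, 0 ≤ s → HasDerivWithinAt P
      ((S.α s + s * (-(S.α s ^ 2 * (1 - η s) / 2))) * η s + s * S.α s * (S.r' s / ν))
      (Ici 0) s := fun s hs => by
    refine ((((hasDerivWithinAt_id s _).mul (S.hα s hs)).mul
      ((S.hr s hs).div_const ν)).const_add 1).congr_deriv ?_
    simp only [hη, id_eq, Pi.mul_apply]; ring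
  have dH : ∀ s, 0 ≤ s → HasDerivWithinAt H (H₁ s) (Ici 0) s := fun s hs => by
    have hG0 := hGp s hs
    have key : (S.α s + s * (-(S.α s ^ 2 * (1 - η s) / 2))) * η s + s * S.α s * (S.r' s / ν)
        = S.α s * P s * (cCoef ν * μ s + ν * (1 - η s) / 2 - (ν + 1)) := by
      have e := S.eq_r s hs
      simp only [fieldR, Gr, cCoef] at e
      simp only [hP, hμ, hη, cCoef]
      linear_combination (norm := (field_simp; ring)) (S.α s / ν) * e
    refine (((((S.hα s hs).pow (m + 1)).mul ((dE s hs).pow (m + 2))).mul (dP s hs)).rpow_const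
      (p := -θ) (Or.inl hG0.ne')).congr_deriv ?_
    have ek : θ * cCoef ν = ν + 1 := by
      have h3 : ν + 3 ≠ 0 := by linarith
      have h2 : ν + 2 ≠ 0 := by linarith
      rw [hθ, theta, cCoef]; push_cast; rw [hm, show ν - 1 + 2 + 1 = ν + 2 by ring,
        show ν - 1 + 2 + 2 = ν + 3 by ring]; field_simp
    simp only [hH₁, hH, Pi.mul_apply, Pi.pow_apply, key]
    rw [show S.α s ^ (m + 1) * E s ^ (m + 2) * P s = G s from rfl, Real.rpow_sub hG0,
      Real.rpow_one]
    generalize G s ^ (-θ) = X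
    rw [show G s = S.α s ^ (m + 1) * E s ^ (m + 2) * P s from rfl,
      show -((ν + 1) * μ s * S.α s * X) = -(θ * cCoef ν * μ s * S.α s * X) by rw [ek]]
    simp only [hF₁, Nat.add_sub_cancel, show m + 2 - 1 = m + 1 by omega, hη]
    push_cast
    rw [hm]
    have := (S.α_pos s).ne'
    have := (hEp s).ne'
    have := (hPp s hs).ne'
    field_simp
    ring
  have dH₁ : ∀ s, 0 ≤ s → HasDerivWithinAt H₁ (H₂ s) (Ici 0) s := fun s hs => by
    have hd : HasDerivWithinAt μ (S.p' s / ν) (Ici 0) s :=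
      ((S.hp s hs).div_const ν).const_add (1/2)
    exact ((((hd.const_mul (ν + 1)).mul (S.hα s hs)).mul (dH s hs)).neg).congr_deriv
      (by simp only [hH₂, hH₁, hη, Pi.mul_apply]; ring)
  have hsm : ∀ k : ℕ, ContDiffOn ℝ k E (Ici 0) := by
    intro k
    induction k with
    | zero =>
      simp only [Nat.cast_zero, contDiffOn_zero]
      exact fun s hs => (dE s hs).continuousWithinAt
    | succ k ih => exact contDiffOn_succ_of dE ((S.smooth k).2.2.mul ih)
  have he : ∀ s, eFun E F₁ F₂ s = S.α s * E s ^ 2 * P s := fun s => by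
    simp only [eFun, hF₁, hF₂, hP]; ring
  refine ⟨{
    F := E
    F₁ := F₁
    F₂ := F₂
    H := H
    H₁ := H₁
    H₂ := H₂
    F_zero := by simp [hE]
    F_pos := fun s _ => hEp s
    F₁_pos := fun s _ => mul_pos (S.α_pos s) (hEp s)
    F₂_nonneg := fun s _ => by
      have := hηp s; have := hEp s
      positivity
    curvature := fun s _ => by
      have h := mul_nonneg (mul_nonneg (sq_nonneg (S.α s)) (hηp s)) (sq_nonneg (E s))
      simp only [hF₁, hF₂]
      nlinarith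
    smooth := hsm
    hasDeriv_F := dE
    hasDeriv_F₁ := dF₁
    hasDeriv_H := dH
    hasDeriv_H₁ := dH₁
    H_eq := fun s _ => by
      rw [he]
      simp only [hH, hF₁, hG, Nat.add_sub_cancel, hθ]
      congr 1; ring
    ode := fun s hs => ?_ }⟩
  have e := S.eq_p s hs
  simp only [fieldP, Gp] at e
  rw [he]
  simp only [hH₂, hH₁, hF₁, hF₂, hP, hμ, hη]
  push_cast
  rw [hm]
  generalize H s = X
  have := (S.α_pos s).ne'
  have := (hEp s).ne'
  linear_combination (norm := (field_simp; ring)) (-(4 * (ν + 1) * S.α s * X * E s / ν)) * e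

end Vale.Agent.P252
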