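import Mathlib

/-!
# The vector field and its invariant polytope

`ν = n - 1`; the unknowns are `p` and `r`, the auxiliary variable `a` is the elasticity
`s F'/F`.
-/

namespace Vale.Agent.P252

/-- The constant `c = n(n+2)/(n+1)`. -/
noncomputable def cCoef (ν : ℝ) : ℝ := (ν + 1) * (ν + 3) / (ν + 2)

/-- The initial value of `r`. -/
noncomputable def rInit (ν : ℝ) : ℝ := (2 * ν + 3) / (ν + 2)

/-- The `a`-coefficient of the field in `p`. -/
noncomputable def Gp (ν p r : ℝ) : ℝ := r * (1 - p) + p * (2 * (ν + 1) * p / ν - 1)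

/-- The `a`-coefficient of the field in `r`. -/
noncomputable def Gr (ν p r : ℝ) : ℝ :=
  r * (2 * cCoef ν * p - ν / (ν + 2)) / ν - r ^ 2 - r ^ 2 / ν + r

/-- The field in `p`. -/
noncomputable def fieldP (ν a p r : ℝ) : ℝ := (ν * (1 - p) + a * Gp ν p r) / 2

/-- The field in `r`. -/
noncomputable def fieldR (ν a p r : ℝ) : ℝ :=
  (2 * cCoef ν * p - ν / (ν + 2) - (ν + 2) * r + a * Gr ν p r) / 2

/-- The invariant polytope. -/
def Reg (ν p r : ℝ) : Prop :=
  1 ≤ p ∧ p ≤ 21/10 ∧ rInit ν ≤ r ∧ r ≤ 5 ∧ 4 * p - 17/5 ≤ r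

/-- The Euler step in `p`. -/
noncomputable def stepP (ν a p r : ℝ) : ℝ := p + fieldP ν a p r / (20 * ν)

/-- The Euler step in `r`. -/
noncomputable def stepR (ν a p r : ℝ) : ℝ := r + fieldR ν a p r / (20 * ν)

variable {ν a p r : ℝ}

theorem rInit_bounds (hν : 9 ≤ ν) : 21/11 ≤ rInit ν ∧ rInit ν ≤ 2 := by
  unfold rInit
  constructor
  · rw [div_le_div_iff₀ (by norm_num) (by linarith)]; linarith
  · rw [div_le_iff₀ (by linarith)]; linarith

theorem cCoef_bounds (hν : 9 ≤ ν) : ν + 1 ≤ cCoef ν ∧ cCoef ν ≤ ν + 2 := by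
  unfold cCoef
  constructor
  · rw [le_div_iff₀ (by linarith)]; nlinarith
  · rw [div_le_iff₀ (by linarith)]; nlinarith

theorem two_cCoef_sub (hν : 9 ≤ ν) :
    2 * cCoef ν - ν / (ν + 2) = (ν + 2) * rInit ν := by
  have : ν + 2 ≠ 0 := by linarith
  unfold cCoef rInit; field_simp; ring

end Vale.Agent.P252
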