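import Vale.Agent.P252.Lipschitz

/-!
# The fixed point on the half line

The unknown is `y = (p, r/8)`, a continuous function on `ℝ` (constant on the negative axis).
-/

namespace Vale.Agent.P252

open MeasureTheory intervalIntegral Set BoundedContinuousFunction
open scoped NNReal Interval

/-- The polytope in the coordinates `(p, r/8)`. -/
def Reg' (ν : ℝ) (y : ℝ × ℝ) : Prop := Reg ν y.1 (8 * y.2)

/-- Admissible unknowns. -/
structure Adm (ν : ℝ) (y : ℝ → ℝ × ℝ) : Prop where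
  cont : Continuous y
  mem : ∀ s, Reg' ν (y s)

/-- The integral `h` with `α = 1/(1+h)`. -/
noncomputable def hFun (ν : ℝ) (y : ℝ → ℝ × ℝ) (s : ℝ) : ℝ :=
  ∫ σ in (0:ℝ)..s, (1 - 8 * (y σ).2 / ν) / 2

/-- The logarithmic derivative `α` of the profile. -/
noncomputable def alphaFun (ν : ℝ) (y : ℝ → ℝ × ℝ) (s : ℝ) : ℝ :=
  1 / (1 + hFun ν y (max s 0))

/-- The elasticity `a = s α`. -/
noncomputable def aFun (ν : ℝ) (y : ℝ → ℝ × ℝ) (s : ℝ) : ℝ := max s 0 * alphaFun ν y s

/-- The Euler step in the coordinates `(p, r/8)`. -/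
noncomputable def stepY (ν a : ℝ) (y : ℝ × ℝ) : ℝ × ℝ :=
  (stepP ν a y.1 (8 * y.2), stepR ν a y.1 (8 * y.2) / 8)

/-- Average against the density `N τ^(N-1)` on `[0,1]`, dilated by `max s 0`. -/
noncomputable def avg (N : ℕ) (g : ℝ → ℝ) (s : ℝ) : ℝ :=
  ∫ τ in (0:ℝ)..1, ((N : ℝ) * τ ^ (N - 1)) * g (max s 0 * τ)

/-- The map whose fixed point is the profile. -/
noncomputable def Tmap (N : ℕ) (ν : ℝ) (y : ℝ → ℝ × ℝ) (s : ℝ) : ℝ × ℝ :=
  (avg N (fun σ => (stepY ν (aFun ν y σ) (y σ)).1) s,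
   avg N (fun σ => (stepY ν (aFun ν y σ) (y σ)).2) s)

variable {ν : ℝ} {y y' : ℝ → ℝ × ℝ} {N : ℕ}

theorem Adm.integrand_cont (hy : Adm ν y) :
    Continuous fun σ => (1 - 8 * (y σ).2 / ν) / 2 := by
  have := hy.cont.snd; fun_prop

theorem Adm.hFun_cont (hy : Adm ν y) : Continuous (hFun ν y) :=
  intervalIntegral.continuous_primitive (fun a b => hy.integrand_cont.intervalIntegrable a b) 0

theorem Adm.snd_bounds (hν : 9 ≤ ν) (hy : Adm ν y) (σ : ℝ) :
    0 ≤ 8 * (y σ).2 ∧ 8 * (y σ).2 ≤ 5 :=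
  ⟨(reg_bounds hν (hy.mem σ)).2.2.1, (reg_bounds hν (hy.mem σ)).2.2.2⟩

theorem Adm.hFun_ge (hν : 9 ≤ ν) (hy : Adm ν y) {s : ℝ} (hs : 0 ≤ s) :
    s * ((1 - 5 / ν) / 2) ≤ hFun ν y s := by
  have h := intervalIntegral.integral_mono_on (μ := volume) (f := fun _ => (1 - 5 / ν) / 2)
    (g := fun σ => (1 - 8 * (y σ).2 / ν) / 2) hs
    (by exact _root_.intervalIntegrable_const) (hy.integrand_cont.intervalIntegrable _ _)
    (fun σ _ => by
      have := (hy.snd_bounds hν σ).2
      have : 8 * (y σ).2 / ν ≤ 5 / ν := div_le_div_of_nonneg_right this (by linarith)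
      linarith)
  rw [intervalIntegral.integral_const, smul_eq_mul, sub_zero] at h
  exact h

theorem Adm.hFun_nonneg (hν : 9 ≤ ν) (hy : Adm ν y) {s : ℝ} (hs : 0 ≤ s) :
    0 ≤ hFun ν y s := by
  refine le_trans (mul_nonneg hs ?_) (hy.hFun_ge hν hs)
  have : 5 / ν ≤ 1 := by rw [div_le_one (by linarith)]; linarith
  linarith

theorem Adm.alpha_pos (hν : 9 ≤ ν) (hy : Adm ν y) (s : ℝ) : 0 < alphaFun ν y s := by
  have := hy.hFun_nonneg hν (le_max_right s 0)
  unfold alphaFun; positivity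

theorem Adm.alpha_cont (hν : 9 ≤ ν) (hy : Adm ν y) : Continuous (alphaFun ν y) := by
  refine Continuous.div continuous_const
    (continuous_const.add (hy.hFun_cont.comp (continuous_id.max continuous_const))) fun s => ?_
  have := hy.hFun_nonneg hν (le_max_right s 0)
  show (1:ℝ) + hFun ν y (max s 0) ≠ 0; linarith

theorem Adm.a_cont (hν : 9 ≤ ν) (hy : Adm ν y) : Continuous (aFun ν y) :=
  (continuous_id.max continuous_const).mul (hy.alpha_cont hν)

theorem Adm.a_nonneg (hν : 9 ≤ ν) (hy : Adm ν y) (s : ℝ) : 0 ≤ aFun ν y s :=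
  mul_nonneg (le_max_right _ _) (hy.alpha_pos hν s).le

theorem Adm.a_le_self (hν : 9 ≤ ν) (hy : Adm ν y) {s : ℝ} (hs : 0 ≤ s) : aFun ν y s ≤ s := by
  have h := hy.hFun_nonneg hν hs
  unfold aFun alphaFun
  rw [max_eq_left hs, mul_one_div, div_le_iff₀ (by linarith)]
  nlinarith

theorem Adm.a_le (hν : 9 ≤ ν) (hy : Adm ν y) (s : ℝ) : aFun ν y s * (ν - 5) ≤ 2 * ν := by
  set m := max s 0
  have hm : 0 ≤ m := le_max_right _ _
  have h0 := hy.hFun_nonneg hν hm
  have h := hy.hFun_ge hν hm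
  have e : m * ((1 - 5 / ν) / 2) * (2 * ν) = m * (ν - 5) := by
    have : ν ≠ 0 := by linarith
    field_simp
  have h2 := mul_le_mul_of_nonneg_right h (show (0:ℝ) ≤ 2 * ν by linarith)
  unfold aFun alphaFun
  rw [mul_one_div, div_mul_eq_mul_div, div_le_iff₀ (by linarith)]
  nlinarith

theorem Adm.stepY_mem (hν : 9 ≤ ν) (hy : Adm ν y) (σ : ℝ) :
    Reg' ν (stepY ν (aFun ν y σ) (y σ)) := by
  have h := reg_step hν (hy.a_nonneg hν σ) (hy.a_le hν σ) (hy.mem σ)
  simpa [Reg', stepY, mul_div_cancel₀] using h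

theorem Adm.stepY_cont (hν : 9 ≤ ν) (hy : Adm ν y) :
    Continuous fun σ => stepY ν (aFun ν y σ) (y σ) := by
  have h1 := hy.a_cont hν
  have h2 := hy.cont.fst
  have h3 := hy.cont.snd
  unfold stepY stepP stepR fieldP fieldR Gp Gr
  fun_prop

theorem avg_cont {g : ℝ → ℝ} (hg : Continuous g) : Continuous (avg N g) := by
  apply intervalIntegral.continuous_parametric_intervalIntegral_of_continuous'
  fun_prop

theorem avg_weight (hN : 1 ≤ N) : ∫ τ in (0:ℝ)..1, (N : ℝ) * τ ^ (N - 1) = 1 := by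
  rw [intervalIntegral.integral_const_mul, integral_pow]
  obtain ⟨k, rfl⟩ := Nat.exists_eq_add_of_le hN
  simp [add_comm 1 k]
  field_simp

theorem avg_intInt {g : ℝ → ℝ} (hg : Continuous g) (s : ℝ) :
    IntervalIntegrable (fun τ => ((N : ℝ) * τ ^ (N - 1)) * g (max s 0 * τ)) volume 0 1 :=
  Continuous.intervalIntegrable (by fun_prop) _ _

theorem avg_const (hN : 1 ≤ N) (c s : ℝ) : avg N (fun _ => c) s = c := by
  unfold avg
  rw [intervalIntegral.integral_mul_const, avg_weight hN, one_mul]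

theorem avg_mono {g g' : ℝ → ℝ} (hg : Continuous g) (hg' : Continuous g')
    (h : ∀ σ, g σ ≤ g' σ) (s : ℝ) : avg N g s ≤ avg N g' s :=
  intervalIntegral.integral_mono_on zero_le_one (avg_intInt hg s) (avg_intInt hg' s)
    fun τ hτ => mul_le_mul_of_nonneg_left (h _)
      (mul_nonneg (Nat.cast_nonneg _) (pow_nonneg hτ.1 _))

theorem avg_lin {g g' : ℝ → ℝ} (hg : Continuous g) (hg' : Continuous g') (u v s : ℝ) :
    avg N (fun σ => u * g σ + v * g' σ) s = u * avg N g s + v * avg N g' s := by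
  unfold avg
  rw [← intervalIntegral.integral_const_mul, ← intervalIntegral.integral_const_mul,
    ← intervalIntegral.integral_add ((avg_intInt hg s).const_mul u) ((avg_intInt hg' s).const_mul v)]
  exact intervalIntegral.integral_congr fun τ _ => by ring

theorem Adm.map (hν : 9 ≤ ν) (hN : 1 ≤ N) (hy : Adm ν y) : Adm ν (Tmap N ν y) := by
  have hc := hy.stepY_cont hν
  refine ⟨(avg_cont hc.fst).prodMk (avg_cont hc.snd), fun s => ?_⟩
  have hm := hy.stepY_mem hν
  set g1 := fun σ => (stepY ν (aFun ν y σ) (y σ)).1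
  set g2 := fun σ => (stepY ν (aFun ν y σ) (y σ)).2
  have l1 : (1:ℝ) ≤ avg N g1 s :=
    (avg_const hN 1 s).symm.le.trans (avg_mono continuous_const hc.fst (fun σ => (hm σ).1) s)
  have l2 : avg N g1 s ≤ 21/10 :=
    (avg_mono hc.fst continuous_const (fun σ => (hm σ).2.1) s).trans (avg_const hN _ s).le
  have l3 : rInit ν / 8 ≤ avg N g2 s :=
    (avg_const hN _ s).symm.le.trans (avg_mono continuous_const hc.snd
      (fun σ => by have := (hm σ).2.2.1; linarith) s)
  have l4 : avg N g2 s ≤ 5/8 :=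
    (avg_mono hc.snd continuous_const (fun σ => by have := (hm σ).2.2.2.1; linarith) s).trans
      (avg_const hN _ s).le
  have l5 : 4 * avg N g1 s + (-8) * avg N g2 s ≤ 17/5 := by
    rw [← avg_lin hc.fst hc.snd]
    exact (avg_mono (by have := hc.fst; have := hc.snd; fun_prop) continuous_const
      (fun σ => by have := (hm σ).2.2.2.2; linarith) s).trans (avg_const hN _ s).le
  refine ⟨l1, l2, ?_, ?_, ?_⟩
  · show rInit ν ≤ 8 * avg N g2 s; linarith
  · show 8 * avg N g2 s ≤ 5; linarith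
  · show 4 * avg N g1 s - 17/5 ≤ 8 * avg N g2 s; linarith

theorem integral_exp_le {L m : ℝ} (hL : 0 < L) :
    ∫ τ in (0:ℝ)..1, m * Real.exp (L * (m * τ)) ≤ Real.exp (L * m) / L := by
  have hd : ∀ τ ∈ [[(0:ℝ), 1]], HasDerivAt (fun τ => Real.exp (L * (m * τ)) / L)
      (m * Real.exp (L * (m * τ))) τ := fun τ _ => by
    have := (((hasDerivAt_id τ).const_mul m).const_mul L).exp.div_const L
    exact this.congr_deriv (by simp only [id_eq]; field_simp)
  rw [intervalIntegral.integral_eq_sub_of_hasDerivAt hd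
    (Continuous.intervalIntegrable (by fun_prop) _ _)]
  simp only [mul_one, mul_zero, Real.exp_zero]
  have : 0 < 1 / L := by positivity
  linarith

theorem avg_sub_le {g g' : ℝ → ℝ} (hg : Continuous g) (hg' : Continuous g') {L M K : ℝ}
    (hN : 1 ≤ N) (hL : 0 < L) (hM : 0 ≤ M) (hK : 0 ≤ K)
    (h : ∀ σ, 0 ≤ σ → |g σ - g' σ| ≤ (K + σ) * M * Real.exp (L * σ)) (s : ℝ) :
    |avg N g s - avg N g' s| ≤ (K + (N:ℝ) / L) * M * Real.exp (L * max s 0) := by
  set m := max s 0
  have hm : 0 ≤ m := le_max_right _ _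
  unfold avg
  rw [← intervalIntegral.integral_sub (avg_intInt hg s) (avg_intInt hg' s)]
  refine (abs_integral_le_integral_abs zero_le_one).trans ?_
  have hb : ∀ τ ∈ Icc (0:ℝ) 1,
      |(N:ℝ) * τ ^ (N - 1) * g (m * τ) - (N:ℝ) * τ ^ (N - 1) * g' (m * τ)| ≤
      K * M * Real.exp (L * m) * ((N:ℝ) * τ ^ (N - 1))
        + M * N * (m * Real.exp (L * (m * τ))) := by
    rintro τ ⟨h0, h1⟩
    have hw : 0 ≤ (N:ℝ) * τ ^ (N - 1) := mul_nonneg (Nat.cast_nonneg _) (pow_nonneg h0 _)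
    rw [← mul_sub, abs_mul, abs_of_nonneg hw]
    refine (mul_le_mul_of_nonneg_left (h _ (mul_nonneg hm h0)) hw).trans ?_
    have e1 : Real.exp (L * (m * τ)) ≤ Real.exp (L * m) :=
      Real.exp_le_exp.2 (by nlinarith [mul_nonneg hm (sub_nonneg.2 h1)])
    have e2 : τ ^ (N - 1) * (m * τ) ≤ m := by
      have := pow_le_one₀ (n := N - 1) h0 h1
      calc τ ^ (N - 1) * (m * τ) ≤ 1 * (m * τ) :=
            mul_le_mul_of_nonneg_right this (mul_nonneg hm h0)
        _ ≤ m := by nlinarith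
    have t1 := mul_le_mul_of_nonneg_left e1 (mul_nonneg (mul_nonneg hK hM) hw)
    have t2 := mul_le_mul_of_nonneg_left e2 (mul_nonneg (mul_nonneg hM (Nat.cast_nonneg N))
      (Real.exp_pos (L * (m * τ))).le)
    nlinarith
  refine (intervalIntegral.integral_mono_on zero_le_one
    (Continuous.intervalIntegrable (by fun_prop) _ _)
    (Continuous.intervalIntegrable (by fun_prop) _ _) hb).trans ?_
  rw [intervalIntegral.integral_add (Continuous.intervalIntegrable (by fun_prop) _ _)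
    (Continuous.intervalIntegrable (by fun_prop) _ _), intervalIntegral.integral_const_mul,
    avg_weight hN, intervalIntegral.integral_const_mul]
  have := mul_le_mul_of_nonneg_left (integral_exp_le (m := m) hL)
    (mul_nonneg hM (Nat.cast_nonneg N))
  have e : (K + (N:ℝ) / L) * M * Real.exp (L * m)
      = K * M * Real.exp (L * m) + M * N * (Real.exp (L * m) / L) := by ring
  linarith

theorem hFun_sub_le (hν : 9 ≤ ν) (hy : Adm ν y) (hy' : Adm ν y') {L M s : ℝ} (hL : 0 < L)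
    (hM : 0 ≤ M) (hs : 0 ≤ s) (h : ∀ σ, 0 ≤ σ → ‖y σ - y' σ‖ ≤ M * Real.exp (L * σ)) :
    |hFun ν y s - hFun ν y' s| ≤ 4/9 * M * (Real.exp (L * s) / L) := by
  unfold hFun
  rw [← intervalIntegral.integral_sub (hy.integrand_cont.intervalIntegrable _ _)
    (hy'.integrand_cont.intervalIntegrable _ _)]
  refine (abs_integral_le_integral_abs hs).trans ?_
  refine (intervalIntegral.integral_mono_on hs
    (g := fun σ => 4/9 * M * Real.exp (L * σ))
    (Continuous.intervalIntegrable (by have := hy.cont; have := hy'.cont; fun_prop) _ _)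
    (Continuous.intervalIntegrable (by fun_prop) _ _) fun σ hσ => ?_).trans ?_
  · have h2 : |(y σ).2 - (y' σ).2| ≤ M * Real.exp (L * σ) := by
      refine le_trans ?_ (h σ hσ.1)
      rw [← Real.norm_eq_abs]; exact norm_snd_le (y σ - y' σ)
    have e : (1 - 8 * (y σ).2 / ν) / 2 - (1 - 8 * (y' σ).2 / ν) / 2
        = -(4 / ν) * ((y σ).2 - (y' σ).2) := by ring
    rw [e]
    have : |-(4 / ν)| ≤ 4/9 := by
      rw [abs_neg, abs_of_nonneg (div_nonneg (by norm_num) (by linarith))]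
      exact div_le_div_of_nonneg_left (by norm_num) (by norm_num) hν
    have := abs_mul_le_mul this h2
    linarith
  · rw [intervalIntegral.integral_const_mul]
    refine mul_le_mul_of_nonneg_left ?_ (by positivity)
    have hd : ∀ τ ∈ [[(0:ℝ), s]], HasDerivAt (fun τ => Real.exp (L * τ) / L)
        (Real.exp (L * τ)) τ := fun τ _ => by
      have := ((hasDerivAt_id τ).const_mul L).exp.div_const L
      exact this.congr_deriv (by simp only [id_eq]; field_simp)
    rw [intervalIntegral.integral_eq_sub_of_hasDerivAt hd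
      (Continuous.intervalIntegrable (by fun_prop) _ _)]
    have : 0 < Real.exp (L * 0) / L := by positivity
    linarith

theorem aFun_sub_le (hν : 9 ≤ ν) (hy : Adm ν y) (hy' : Adm ν y') {L M σ : ℝ} (hL : 0 < L)
    (hM : 0 ≤ M) (hσ : 0 ≤ σ) (h : ∀ τ, 0 ≤ τ → ‖y τ - y' τ‖ ≤ M * Real.exp (L * τ)) :
    |aFun ν y σ - aFun ν y' σ| ≤ 2 / L * M * Real.exp (L * σ) := by
  have hd := hFun_sub_le hν hy hy' hL hM hσ h
  have h1 := hy.hFun_nonneg hν hσ
  have h2 := hy'.hFun_nonneg hν hσ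
  have e : aFun ν y σ - aFun ν y' σ
      = aFun ν y σ * (1 / (1 + hFun ν y' σ)) * (hFun ν y' σ - hFun ν y σ) := by
    unfold aFun alphaFun; rw [max_eq_left hσ]; field_simp; ring
  have ha : |aFun ν y σ| ≤ 9/2 := by
    rw [abs_of_nonneg (hy.a_nonneg hν σ)]; exact a_le_of hν (hy.a_le hν σ)
  have hb : |1 / (1 + hFun ν y' σ)| ≤ 1 := by
    rw [abs_of_nonneg (by positivity), div_le_one (by linarith)]; linarith
  rw [abs_sub_comm] at hd
  rw [e]
  refine (abs_mul_le_mul (abs_mul_le_mul ha hb) hd).trans_eq ?_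
  ring

theorem Tmap_sub_le (hν : 9 ≤ ν) (hy : Adm ν y) (hy' : Adm ν y') (hN : 1 ≤ N) {L M : ℝ}
    (hM : 0 ≤ M) (hL : (N:ℝ) + 2 ≤ L / 120)
    (h : ∀ σ, 0 ≤ σ → ‖y σ - y' σ‖ ≤ M * Real.exp (L * σ)) (s : ℝ) :
    ‖Tmap N ν y s - Tmap N ν y' s‖ ≤ 119/120 * M * Real.exp (L * max s 0) := by
  have hN0 : (0:ℝ) ≤ N := Nat.cast_nonneg N
  have hL0 : 0 < L := by linarith
  have key : ∀ σ, 0 ≤ σ →
      |(stepY ν (aFun ν y σ) (y σ)).1 - (stepY ν (aFun ν y' σ) (y' σ)).1|
        ≤ (59/60 + 2 / L + σ) * M * Real.exp (L * σ) ∧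
      |(stepY ν (aFun ν y σ) (y σ)).2 - (stepY ν (aFun ν y' σ) (y' σ)).2|
        ≤ (59/60 + 2 / L + σ) * M * Real.exp (L * σ) := by
    intro σ hσ
    have hp : |(y σ).1 - (y' σ).1| ≤ M * Real.exp (L * σ) := by
      refine le_trans ?_ (h σ hσ); rw [← Real.norm_eq_abs]; exact norm_fst_le (y σ - y' σ)
    have hr : |8 * (y σ).2 - 8 * (y' σ).2| ≤ 8 * (M * Real.exp (L * σ)) := by
      rw [← mul_sub, abs_mul, abs_of_nonneg (by norm_num : (0:ℝ) ≤ 8)]
      refine mul_le_mul_of_nonneg_left ?_ (by norm_num)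
      refine le_trans ?_ (h σ hσ); rw [← Real.norm_eq_abs]; exact norm_snd_le (y σ - y' σ)
    have hda := aFun_sub_le hν hy hy' hL0 hM hσ h
    have h0 : 0 ≤ M * Real.exp (L * σ) := by positivity
    have hmain : (59/60 + aFun ν y σ) * (M * Real.exp (L * σ)) + |aFun ν y σ - aFun ν y' σ|
        ≤ (59/60 + 2 / L + σ) * M * Real.exp (L * σ) := by
      have := mul_le_mul_of_nonneg_right (hy.a_le_self hν hσ) h0
      nlinarith
    constructor
    · exact (stepP_lip hν (hy.mem σ) (hy'.mem σ) (hy.a_nonneg hν σ) hp hr).trans hmain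
    · have h8 := stepR_lip (a' := aFun ν y' σ) hν (hy.mem σ) (hy'.mem σ)
        (hy.a_nonneg hν σ) hp hr
      show |stepR ν _ _ _ / 8 - stepR ν _ _ _ / 8| ≤ _
      rw [← sub_div, abs_div, abs_of_nonneg (by norm_num : (0:ℝ) ≤ 8),
        div_le_iff₀ (by norm_num)]
      linarith
  have hK : (59/60 + 2 / L + (N:ℝ) / L) ≤ 119/120 := by
    have : ((N:ℝ) + 2) / L ≤ 1/120 := by rw [div_le_iff₀ hL0]; linarith
    rw [add_div] at this; linarith
  have hc := hy.stepY_cont hν
  have hc' := hy'.stepY_cont hν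
  have b1 := avg_sub_le hc.fst hc'.fst hN hL0 hM (by positivity) (fun σ hσ => (key σ hσ).1) s
  have b2 := avg_sub_le hc.snd hc'.snd hN hL0 hM (by positivity) (fun σ hσ => (key σ hσ).2) s
  have hk := mul_le_mul_of_nonneg_right hK
    (mul_nonneg hM (Real.exp_pos (L * max s 0)).le)
  rw [Prod.norm_def]
  refine max_le ?_ ?_
  · simp only [Tmap, Prod.fst_sub, Real.norm_eq_abs]; linarith
  · simp only [Tmap, Prod.snd_sub, Real.norm_eq_abs]; linarith

theorem isClosed_reg' (ν : ℝ) : IsClosed {y : ℝ × ℝ | Reg' ν y} := by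
  simp only [Reg', Reg, Set.ofPred_and]
  refine IsClosed.inter (isClosed_le (by fun_prop) (by fun_prop)) (IsClosed.inter
    (isClosed_le (by fun_prop) (by fun_prop)) (IsClosed.inter
    (isClosed_le (by fun_prop) (by fun_prop)) (IsClosed.inter
    (isClosed_le (by fun_prop) (by fun_prop)) (isClosed_le (by fun_prop) (by fun_prop)))))

theorem norm_le_five (hν : 9 ≤ ν) {y : ℝ × ℝ} (h : Reg' ν y) : ‖y‖ ≤ 5 := by
  obtain ⟨h1, h2, h3, h4⟩ := reg_bounds hν h
  rw [Prod.norm_def]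
  refine max_le ?_ ?_ <;> rw [Real.norm_eq_abs, abs_le] <;> constructor <;> linarith

/-- Existence of the fixed point. -/
theorem exists_fixed (hν : 9 ≤ ν) (N : ℕ) (hN : 1 ≤ N) :
    ∃ y : ℝ → ℝ × ℝ, Adm ν y ∧ ∀ s, 0 ≤ s → Tmap N ν y s = y s := by
  set L : ℝ := 120 * ((N:ℝ) + 2) with hLdef
  have hL : 0 < L := by positivity
  set X : Set (ℝ →ᵇ ℝ × ℝ) := {z | ∀ s, Reg' ν (Real.exp (L * max s 0) • z (max s 0))} with hX
  have hXc : IsClosed X := by
    simp only [hX, Set.ofPred_forall]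
    exact isClosed_iInter fun s =>
      (isClosed_reg' ν).preimage ((continuous_eval_const (max s 0)).const_smul (Real.exp (L * max s 0)))
  haveI : CompleteSpace X := hXc.completeSpace_coe
  let Y : (ℝ →ᵇ ℝ × ℝ) → ℝ → ℝ × ℝ := fun z s => Real.exp (L * max s 0) • z (max s 0)
  have hAdm : ∀ z : X, Adm ν (Y z) := fun z =>
    ⟨by simp only [Y]; fun_prop, z.2⟩
  let W : (ℝ → ℝ × ℝ) → ℝ → ℝ × ℝ := fun y s =>
    Real.exp (-(L * max s 0)) • Tmap N ν y s
  have hWc : ∀ z : X, Continuous (W (Y z)) := fun z => by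
    have := ((hAdm z).map hν hN).cont
    simp only [W]; fun_prop
  have hWb : ∀ (z : X) s, ‖W (Y z) s‖ ≤ 5 := fun z s => by
    simp only [W, norm_smul, Real.norm_eq_abs, abs_of_pos (Real.exp_pos _)]
    refine (mul_le_mul (Real.exp_le_one_iff.2 ?_) (norm_le_five hν (((hAdm z).map hν hN).mem s))
      (norm_nonneg _) zero_le_one).trans_eq (one_mul _)
    have := le_max_right s 0
    nlinarith
  have hTmax : ∀ (z : X) s, Tmap N ν (Y z) (max s 0) = Tmap N ν (Y z) s := fun z s => by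
    simp [Tmap, avg]
  have hWeq : ∀ (z : X) s,
      Real.exp (L * max s 0) • W (Y z) (max s 0) = Tmap N ν (Y z) s := fun z s => by
    simp only [W, smul_smul, max_eq_left (le_max_right s 0), ← Real.exp_add, add_neg_cancel,
      Real.exp_zero, one_smul, hTmax]
  let T : X → X := fun z =>
    ⟨BoundedContinuousFunction.ofNormedAddCommGroup (W (Y z)) (hWc z) 5 (hWb z),
      fun s => by
        show Reg' ν (Real.exp (L * max s 0) • W (Y z) (max s 0))
        rw [hWeq]; exact ((hAdm z).map hν hN).mem s⟩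
  have hT : ContractingWith (119/120 : ℝ≥0) T := by
    refine ⟨by norm_num, LipschitzWith.of_dist_le_mul fun z z' => ?_⟩
    have hd : ∀ σ, 0 ≤ σ → ‖Y z σ - Y z' σ‖ ≤ dist z z' * Real.exp (L * σ) := fun σ hσ => by
      simp only [Y, max_eq_left hσ, ← smul_sub, norm_smul, Real.norm_eq_abs,
        abs_of_pos (Real.exp_pos _)]
      rw [mul_comm]
      refine mul_le_mul_of_nonneg_right ?_ (Real.exp_pos _).le
      rw [← dist_eq_norm]; exact BoundedContinuousFunction.dist_coe_le_dist σ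
    rw [Subtype.dist_eq]
    refine (BoundedContinuousFunction.dist_le (by positivity)).2 fun s => ?_
    have hb := Tmap_sub_le hν (hAdm z) (hAdm z') hN (L := L) dist_nonneg
      (by rw [hLdef]; linarith) hd s
    show dist (W (Y z) s) (W (Y z') s) ≤ _
    rw [dist_eq_norm]
    simp only [W, ← smul_sub, norm_smul, Real.norm_eq_abs, abs_of_pos (Real.exp_pos _)]
    refine (mul_le_mul_of_nonneg_left hb (Real.exp_pos _).le).trans_eq ?_
    rw [mul_left_comm, ← Real.exp_add, neg_add_cancel, Real.exp_zero, mul_one]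
    push_cast; rw [Subtype.dist_eq]
  let z0 : ℝ →ᵇ ℝ × ℝ := BoundedContinuousFunction.ofNormedAddCommGroup
    (fun s => Real.exp (-(L * max s 0)) • ((1:ℝ), rInit ν / 8)) (by fun_prop) 5 fun s => by
      simp only [norm_smul, Real.norm_eq_abs, abs_of_pos (Real.exp_pos _)]
      refine (mul_le_mul (Real.exp_le_one_iff.2 ?_) (norm_le_five hν ?_) (norm_nonneg _)
        zero_le_one).trans_eq (one_mul _)
      · have := le_max_right s 0
        nlinarith
      · obtain ⟨h1, h2⟩ := rInit_bounds hν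
        show Reg ν 1 (8 * (rInit ν / 8))
        exact ⟨le_rfl, by norm_num, by linarith, by linarith, by linarith⟩
  have hz0 : z0 ∈ X := fun s => by
    obtain ⟨h1, h2⟩ := rInit_bounds hν
    simp only [z0, BoundedContinuousFunction.coe_ofNormedAddCommGroup, smul_smul,
      max_eq_left (le_max_right s 0), ← Real.exp_add, add_neg_cancel, Real.exp_zero, one_smul]
    show Reg ν 1 (8 * (rInit ν / 8))
    exact ⟨le_rfl, by norm_num, by linarith, by linarith, by linarith⟩
  haveI : Nonempty X := ⟨⟨z0, hz0⟩⟩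
  set z := ContractingWith.fixedPoint T hT
  have hz : T z = z := hT.fixedPoint_isFixedPt
  refine ⟨Y z, hAdm z, fun s hs => ?_⟩
  have h1 : W (Y z) s = (z : ℝ →ᵇ ℝ × ℝ) s :=
    congrArg (fun w : X => (w : ℝ →ᵇ ℝ × ℝ) s) hz
  have h2 := hWeq z s
  simp only [max_eq_left hs, h1] at h2
  rw [← h2]
  simp [Y, max_eq_left hs]

end Vale.Agent.P252
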