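import Mathlib

/-!
# Radial profiles for the affine maximal equation
-/

namespace Vale.Agent.P252

open Set

/-- The exponent `θ = (n+1)/(n+2)`. -/
noncomputable def theta (n : ℕ) : ℝ := ((n : ℝ) + 1) / ((n : ℝ) + 2)

/-- The quantity `e` attached to a profile `F` with derivatives `F₁`, `F₂`. -/
def eFun (F F₁ F₂ : ℝ → ℝ) (s : ℝ) : ℝ :=
  F s * F₁ s + 2 * s * F s * F₂ s - s * F₁ s ^ 2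

/-- Data `F` on `[0, ∞)` making `x, z ↦ √(z² + F |x|²)` affine maximal on `ℝ^n`. -/
structure Profile (n : ℕ) where
  F : ℝ → ℝ
  F₁ : ℝ → ℝ
  F₂ : ℝ → ℝ
  H : ℝ → ℝ
  H₁ : ℝ → ℝ
  H₂ : ℝ → ℝ
  F_zero : F 0 = 1
  F_pos : ∀ s, 0 ≤ s → 0 < F s
  F₁_pos : ∀ s, 0 ≤ s → 0 < F₁ s
  F₂_nonneg : ∀ s, 0 ≤ s → 0 ≤ F₂ s
  curvature : ∀ s, 0 ≤ s → F₁ s ^ 2 ≤ 2 * F s * F₂ s
  smooth : ∀ k : ℕ, ContDiffOn ℝ k F (Ici 0)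
  hasDeriv_F : ∀ s, 0 ≤ s → HasDerivWithinAt F (F₁ s) (Ici 0) s
  hasDeriv_F₁ : ∀ s, 0 ≤ s → HasDerivWithinAt F₁ (F₂ s) (Ici 0) s
  hasDeriv_H : ∀ s, 0 ≤ s → HasDerivWithinAt H (H₁ s) (Ici 0) s
  hasDeriv_H₁ : ∀ s, 0 ≤ s → HasDerivWithinAt H₁ (H₂ s) (Ici 0) s
  H_eq : ∀ s, 0 ≤ s → H s = (F₁ s ^ (n - 2) * eFun F F₁ F₂ s) ^ (-theta n)
  ode : ∀ s, 0 ≤ s →
    (n : ℝ) * ((n : ℝ) + 1) * H s * (F₁ s + 2 * s * F₂ s)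
      + 4 * ((n : ℝ) + 1) * s * F₁ s * H₁ s + 2 * F s * H₁ s + 4 * s * F s * H₂ s
      + 2 * ((n : ℝ) - 2) * eFun F F₁ F₂ s * H₁ s / F₁ s = 0

end Vale.Agent.P252
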