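import Vale.Agent.P252.Field

/-!
# Invariance of the polytope under a short Euler step
-/

namespace Vale.Agent.P252

variable {ν a p r : ℝ}

theorem a_le_of (hν : 9 ≤ ν) (haA : a * (ν - 5) ≤ 2 * ν) : a ≤ 9/2 := by
  by_contra h; push Not at h; nlinarith

/-- A concave quadratic is nonnegative between two points where it is nonnegative. -/
theorem concave_quadratic_nonneg {α β γ l u x : ℝ} (hα : α ≤ 0) (hlu : l < u)
    (hl : 0 ≤ α * l ^ 2 + β * l + γ) (hu : 0 ≤ α * u ^ 2 + β * u + γ)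
    (hlx : l ≤ x) (hxu : x ≤ u) : 0 ≤ α * x ^ 2 + β * x + γ := by
  have e : (α * x ^ 2 + β * x + γ) * (u - l) =
      (u - x) * (α * l ^ 2 + β * l + γ) + (x - l) * (α * u ^ 2 + β * u + γ)
        + (-α) * ((x - l) * (u - x) * (u - l)) := by ring
  have h1 : 0 ≤ (u - x) * (α * l ^ 2 + β * l + γ) := mul_nonneg (by linarith) hl
  have h2 : 0 ≤ (x - l) * (α * u ^ 2 + β * u + γ) := mul_nonneg (by linarith) hu
  have h3 : 0 ≤ (-α) * ((x - l) * (u - x) * (u - l)) :=
    mul_nonneg (by linarith) (mul_nonneg (mul_nonneg (by linarith) (by linarith)) (by linarith))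
  nlinarith

theorem stepP_ge (hν : 9 ≤ ν) (ha : 0 ≤ a) (haA : a * (ν - 5) ≤ 2 * ν) (h : Reg ν p r) :
    1 ≤ stepP ν a p r := by
  obtain ⟨h1, h2, h3, h4, h5⟩ := h
  have hA := a_le_of hν haA
  have hν0 : 0 < ν := by linarith
  have hr : 0 ≤ r := by linarith [(rInit_bounds hν).1]
  have hG : -(5 * (p - 1)) ≤ Gp ν p r := by
    have : 0 ≤ 2 * (ν + 1) * p / ν - 1 := by
      rw [sub_nonneg, le_div_iff₀ hν0]; nlinarith
    have := mul_nonneg (show (0:ℝ) ≤ p by linarith) this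
    unfold Gp; nlinarith
  have hmul := mul_le_mul_of_nonneg_left hG ha
  have : -(40 * ν * (p - 1)) ≤ ν * (1 - p) + a * Gp ν p r := by nlinarith
  unfold stepP fieldP
  rw [← sub_nonneg]
  have e : p + (ν * (1 - p) + a * Gp ν p r) / 2 / (20 * ν) - 1
      = (40 * ν * (p - 1) + (ν * (1 - p) + a * Gp ν p r)) / (40 * ν) := by field_simp; ring
  rw [e]; apply div_nonneg <;> linarith

theorem stepP_le (hν : 9 ≤ ν) (ha : 0 ≤ a) (haA : a * (ν - 5) ≤ 2 * ν) (h : Reg ν p r) :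
    stepP ν a p r ≤ 21/10 := by
  obtain ⟨h1, h2, h3, h4, h5⟩ := h
  have hν0 : 0 < ν := by linarith
  set X := ν * (p - 1) + 40 * ν * (21/10 - p) with hX
  have hX0 : 0 ≤ X := by nlinarith
  have key : a * Gp ν p r ≤ X := by
    rcases le_total (Gp ν p r) 0 with hG | hG
    · exact (mul_nonpos_of_nonneg_of_nonpos ha hG).trans hX0
    · have e : ν * Gp ν p r = ν * r * (1 - p) + p * (2 * (ν + 1) * p - ν) := by
        unfold Gp; field_simp
      have hr : ν * r * (1 - p) ≤ ν * (4 * p - 17/5) * (1 - p) :=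
        mul_le_mul_of_nonpos_right (mul_le_mul_of_nonneg_left h5 hν0.le) (by linarith)
      have k2 : 2 * (ν * Gp ν p r) ≤ (ν - 5) * X := by
        rw [e, hX]
        nlinarith [mul_nonneg (show (0:ℝ) ≤ ν - 9 by linarith) (show (0:ℝ) ≤ 21/10 - p by linarith),
          mul_nonneg (show (0:ℝ) ≤ ν - 9 by linarith) (show (0:ℝ) ≤ p - 1 by linarith),
          mul_nonneg (show (0:ℝ) ≤ 21/10 - p by linarith) (show (0:ℝ) ≤ p - 1 by linarith),
          mul_nonneg (sq_nonneg (ν - 9)) (show (0:ℝ) ≤ 21/10 - p by linarith),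
          mul_nonneg (sq_nonneg (ν - 9)) (show (0:ℝ) ≤ p - 1 by linarith)]
      have := mul_le_mul_of_nonneg_right haA hG
      by_contra hc; push Not at hc
      nlinarith [mul_lt_mul_of_pos_left hc (show (0:ℝ) < ν - 5 by linarith)]
  unfold stepP fieldP
  rw [← sub_nonneg]
  have e : 21/10 - (p + (ν * (1 - p) + a * Gp ν p r) / 2 / (20 * ν))
      = (X - a * Gp ν p r) / (40 * ν) := by rw [hX]; field_simp; ring
  rw [e]; apply div_nonneg <;> linarith

theorem stepR_ge (hν : 9 ≤ ν) (ha : 0 ≤ a) (haA : a * (ν - 5) ≤ 2 * ν) (h : Reg ν p r) :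
    rInit ν ≤ stepR ν a p r := by
  obtain ⟨h1, h2, h3, h4, h5⟩ := h
  have hA := a_le_of hν haA
  have hν0 : 0 < ν := by linarith
  obtain ⟨hr0, hr0'⟩ := rInit_bounds hν
  obtain ⟨hc, hc'⟩ := cCoef_bounds hν
  have hc0 := two_cCoef_sub hν
  have hG : -(50/9 * (r - rInit ν)) ≤ Gr ν p r := by
    have e : Gr ν p r = r * ((2 * cCoef ν * (p - 1) + (ν + 2) * rInit ν) / ν
        - r * (1 + 1/ν) + 1) := by rw [← hc0]; unfold Gr; field_simp; ring
    have : -(10/9 * (r - rInit ν)) ≤ (2 * cCoef ν * (p - 1) + (ν + 2) * rInit ν) / ν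
        - r * (1 + 1/ν) + 1 := by
      have e2 : (2 * cCoef ν * (p - 1) + (ν + 2) * rInit ν) / ν - r * (1 + 1/ν) + 1
          = 2 * cCoef ν * (p - 1) / ν + rInit ν / ν + 1 - (r - rInit ν) * (1 + 1/ν) := by
        field_simp; ring
      rw [e2]
      have : 0 ≤ 2 * cCoef ν * (p - 1) / ν := div_nonneg (by nlinarith) hν0.le
      have : 0 ≤ rInit ν / ν := div_nonneg (by linarith) hν0.le
      have : 1 + 1/ν ≤ 10/9 := by
        have : 1/ν ≤ 1/9 := one_div_le_one_div_of_le (by norm_num) hν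
        linarith
      nlinarith
    rw [e]; nlinarith [mul_le_mul_of_nonneg_left this (show (0:ℝ) ≤ r by linarith)]
  have hmul := mul_le_mul_of_nonneg_left hG ha
  have : -(40 * ν * (r - rInit ν)) ≤
      2 * cCoef ν * p - ν / (ν + 2) - (ν + 2) * r + a * Gr ν p r := by
    have : 0 ≤ cCoef ν * (p - 1) := mul_nonneg (by linarith) (by linarith)
    nlinarith
  unfold stepR fieldR
  rw [← sub_nonneg]
  have e : r + (2 * cCoef ν * p - ν / (ν + 2) - (ν + 2) * r + a * Gr ν p r) / 2 / (20 * ν)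
      - rInit ν = (40 * ν * (r - rInit ν) +
        (2 * cCoef ν * p - ν / (ν + 2) - (ν + 2) * r + a * Gr ν p r)) / (40 * ν) := by
    field_simp; ring
  rw [e]; apply div_nonneg <;> linarith

theorem stepR_le (hν : 9 ≤ ν) (ha : 0 ≤ a) (haA : a * (ν - 5) ≤ 2 * ν) (h : Reg ν p r) :
    stepR ν a p r ≤ 5 := by
  obtain ⟨h1, h2, h3, h4, h5⟩ := h
  have hA := a_le_of hν haA
  have hν0 : 0 < ν := by linarith
  obtain ⟨hr0, -⟩ := rInit_bounds hν
  obtain ⟨hc, -⟩ := cCoef_bounds hν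
  have hcp : 2 * cCoef ν * p - ν / (ν + 2) ≤ 5 * ν := by
    have : 2 * cCoef ν * p ≤ 2 * cCoef ν * (21/10) := by nlinarith
    have : 2 * cCoef ν * (21/10) - ν / (ν + 2) ≤ 5 * ν := by
      have h2ν : (0:ℝ) < ν + 2 := by linarith
      have e : 2 * cCoef ν * (21/10) - ν / (ν + 2)
          = (21/5 * (ν + 1) * (ν + 3) - ν) / (ν + 2) := by unfold cCoef; field_simp; ring
      rw [e, div_le_iff₀ h2ν]; nlinarith
    linarith
  have hG : Gr ν p r ≤ r * (5 - r + 1 - r / ν) := by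
    have e : Gr ν p r = r * ((2 * cCoef ν * p - ν / (ν + 2)) / ν - r - r / ν + 1) := by
      unfold Gr; field_simp
    have : (2 * cCoef ν * p - ν / (ν + 2)) / ν ≤ 5 := by rw [div_le_iff₀ hν0]; linarith
    rw [e]; nlinarith
  have hmul := mul_le_mul_of_nonneg_left hG ha
  have hr : 0 ≤ r := by linarith
  have h6 : a * r * (1 - 5 / ν) ≤ 2 * r := by
    have : a * (1 - 5/ν) ≤ 2 := by
      have e : a * (1 - 5/ν) = a * (ν - 5) / ν := by field_simp
      rw [e, div_le_iff₀ hν0]; linarith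
    nlinarith [mul_le_mul_of_nonneg_right this hr]
  have h7 : a * r * ((5 - r) / ν) ≤ 5/2 * (5 - r) := by
    have hb : a * r / ν ≤ 5/2 := by rw [div_le_iff₀ hν0]; nlinarith
    have := mul_le_mul_of_nonneg_right hb (show (0:ℝ) ≤ 5 - r by linarith)
    have e : a * r * ((5 - r) / ν) = a * r / ν * (5 - r) := by ring
    linarith
  have e1 : a * (r * (5 - r + 1 - r / ν))
      = a * r * (5 - r) + a * r * (1 - 5 / ν) + a * r * ((5 - r) / ν) := by field_simp; ring
  have h8 : a * r * (5 - r) ≤ 45/2 * (5 - r) :=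
    mul_le_mul_of_nonneg_right (by nlinarith) (by linarith)
  have : 2 * cCoef ν * p - ν / (ν + 2) - (ν + 2) * r + a * Gr ν p r ≤ 40 * ν * (5 - r) := by
    nlinarith
  unfold stepR fieldR
  rw [← sub_nonneg]
  have e : 5 - (r + (2 * cCoef ν * p - ν / (ν + 2) - (ν + 2) * r + a * Gr ν p r) / 2 / (20 * ν))
      = (40 * ν * (5 - r) -
        (2 * cCoef ν * p - ν / (ν + 2) - (ν + 2) * r + a * Gr ν p r)) / (40 * ν) := by
    field_simp; ring
  rw [e]; apply div_nonneg <;> linarith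

/-- The value of the `a = 0` part on the oblique face. -/
noncomputable def faceT (ν p : ℝ) : ℝ :=
  (2 * cCoef ν - 8) * p - 3/5 * ν + 34/5 - ν / (ν + 2)

/-- The `a`-coefficient on the oblique face. -/
noncomputable def faceQ (ν p : ℝ) : ℝ :=
  -(6/5) * p - 34/25 + (-16 * p ^ 2 + 102/5 * p - 289/25) / ν
    + (4 * p - 17/5) * (2 * p * (ν + 1) / ν - 1) / (ν + 2)

theorem face_eq (hν : 9 ≤ ν) (p : ℝ) :
    2 * cCoef ν * p - ν / (ν + 2) - (ν + 2) * (4 * p - 17/5) - 4 * (ν * (1 - p)) = faceT ν p ∧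
      Gr ν p (4 * p - 17/5) - 4 * Gp ν p (4 * p - 17/5) = faceQ ν p := by
  have : ν ≠ 0 := by linarith
  have : ν + 2 ≠ 0 := by linarith
  constructor
  · unfold faceT; ring
  · unfold Gr Gp faceQ cCoef; field_simp; ring

theorem faceT_nonneg (hν : 9 ≤ ν) (hp : 1 ≤ p) : 0 ≤ faceT ν p := by
  obtain ⟨hc, -⟩ := cCoef_bounds hν
  have : ν / (ν + 2) ≤ 1 := by rw [div_le_one (by linarith)]; linarith
  unfold faceT; nlinarith

theorem faceTQ_nonneg (hν : 9 ≤ ν) (hp : 1 ≤ p) (hp' : p ≤ 21/10) :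
    0 ≤ (ν - 5) * (faceT ν p + 20 * ν * max 0 (21/11 + 17/5 - 4 * p)) + 2 * ν * faceQ ν p := by
  have hν0 : 0 < ν := by linarith
  have h2ν : 0 < ν + 2 := by linarith
  have hmul : ∀ m q : ℝ, ((ν - 5) * (faceT ν q + 20 * ν * m) + 2 * ν * faceQ ν q) * (ν + 2) =
      ((-16) * 2 * (ν + 2) + 16 * (ν + 1)) * q ^ 2 +
      ((ν - 5) * (2 * (ν + 1) * (ν + 3) - 8 * (ν + 2)) - 12/5 * ν * (ν + 2)
        + 204/5 * (ν + 2) - 68/5 * (ν + 1) - 8 * ν) * q +
      ((ν - 5) * ((34/5 - 3/5 * ν) * (ν + 2) - ν) + (ν - 5) * (20 * ν * m) * (ν + 2)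
        - 68/25 * ν * (ν + 2) - 578/25 * (ν + 2) + 34/5 * ν) := by
    intro m q; unfold faceT faceQ cCoef; field_simp; ring
  have hα : ((-16) * 2 * (ν + 2) + 16 * (ν + 1) : ℝ) ≤ 0 := by linarith
  have h9 : (0:ℝ) ≤ ν - 9 := by linarith
  suffices H : 0 ≤ ((ν - 5) * (faceT ν p + 20 * ν * max 0 (21/11 + 17/5 - 4 * p))
      + 2 * ν * faceQ ν p) * (ν + 2) from nonneg_of_mul_nonneg_left H h2ν
  rcases le_total (13/10) p with h | h
  · refine le_trans ?_ (mul_le_mul_of_nonneg_right (add_le_add (mul_le_mul_of_nonneg_left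
      (show faceT ν p + 20 * ν * 0 ≤ faceT ν p + 20 * ν * max 0 (21/11 + 17/5 - 4 * p) by
        gcongr; exact le_max_left _ _) (show (0:ℝ) ≤ ν - 5 by linarith)) (le_refl _)) h2ν.le)
    rw [hmul]
    refine concave_quadratic_nonneg hα (show (13/10:ℝ) < 21/10 by norm_num) ?_ ?_ h hp'
    · nlinarith [pow_nonneg h9 3, sq_nonneg (ν - 9), h9]
    · nlinarith [pow_nonneg h9 3, sq_nonneg (ν - 9), h9]
  · refine le_trans ?_ (mul_le_mul_of_nonneg_right (add_le_add (mul_le_mul_of_nonneg_left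
      (show faceT ν p + 20 * ν * (1/10) ≤ faceT ν p + 20 * ν * max 0 (21/11 + 17/5 - 4 * p) by
        gcongr; exact le_max_of_le_right (by linarith)) (show (0:ℝ) ≤ ν - 5 by linarith))
      (le_refl _)) h2ν.le)
    rw [hmul]
    refine concave_quadratic_nonneg hα (show (1:ℝ) < 13/10 by norm_num) ?_ ?_ hp h
    · nlinarith [pow_nonneg h9 3, sq_nonneg (ν - 9), h9]
    · nlinarith [pow_nonneg h9 3, sq_nonneg (ν - 9), h9]

theorem stepR_line (hν : 9 ≤ ν) (ha : 0 ≤ a) (haA : a * (ν - 5) ≤ 2 * ν) (h : Reg ν p r) :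
    4 * stepP ν a p r - 17/5 ≤ stepR ν a p r := by
  obtain ⟨h1, h2, h3, h4, h5⟩ := h
  have hA := a_le_of hν haA
  have hν0 : 0 < ν := by linarith
  obtain ⟨hr0, -⟩ := rInit_bounds hν
  obtain ⟨hc, hc'⟩ := cCoef_bounds hν
  set d := r - (4 * p - 17/5) with hd
  have hd0 : 0 ≤ d := by linarith
  obtain ⟨eT, eQ⟩ := face_eq hν p
  -- the field on the face, and the variation off it
  have hdiff : faceQ ν p - 16 * d ≤ Gr ν p r - 4 * Gp ν p r := by
    have e : Gr ν p r - 4 * Gp ν p r - faceQ ν p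
        = d * ((2 * cCoef ν * p - ν / (ν + 2)) / ν + 1 - 4 * (1 - p)
          - (r + (4 * p - 17/5)) * (1 + 1/ν)) := by
      rw [← eQ, hd]; unfold Gr Gp; field_simp; ring
    have h0 : 0 ≤ (2 * cCoef ν * p - ν / (ν + 2)) / ν := by
      apply div_nonneg _ hν0.le
      have : ν / (ν + 2) ≤ 1 := by rw [div_le_one (by linarith)]; linarith
      nlinarith
    have h1' : (r + (4 * p - 17/5)) * (1 + 1/ν) ≤ 10 * (10/9) := by
      have hh : 1/ν ≤ 1/9 := one_div_le_one_div_of_le (by norm_num) hν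
      have : 0 ≤ 1/ν := by positivity
      exact mul_le_mul (by linarith) (by linarith) (by linarith) (by norm_num)
    have : -16 ≤ (2 * cCoef ν * p - ν / (ν + 2)) / ν + 1 - 4 * (1 - p)
        - (r + (4 * p - 17/5)) * (1 + 1/ν) := by linarith
    nlinarith [mul_le_mul_of_nonneg_left this hd0]
  have hmul := mul_le_mul_of_nonneg_left hdiff ha
  have hm : max 0 (21/11 + 17/5 - 4 * p) ≤ d := max_le hd0 (by linarith)
  have hface : 0 ≤ faceT ν p + 20 * ν * d + a * faceQ ν p := by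
    have hT := faceT_nonneg hν h1
    rcases le_total 0 (faceQ ν p) with hQ | hQ
    · nlinarith [mul_nonneg ha hQ]
    · have h0 := faceTQ_nonneg hν h1 h2
      have := mul_le_mul_of_nonpos_right haA hQ
      have := mul_le_mul_of_nonneg_left (mul_le_mul_of_nonneg_left hm
        (show (0:ℝ) ≤ 20 * ν by linarith)) (show (0:ℝ) ≤ ν - 5 by linarith)
      have : 0 ≤ (ν - 5) * (faceT ν p + 20 * ν * d + a * faceQ ν p) := by nlinarith
      exact nonneg_of_mul_nonneg_right this (by linarith)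
  have hsum : 0 ≤ (2 * cCoef ν * p - ν / (ν + 2) - (ν + 2) * r + a * Gr ν p r)
      - 4 * (ν * (1 - p) + a * Gp ν p r) + 40 * ν * d := by
    have e : 2 * cCoef ν * p - ν / (ν + 2) - (ν + 2) * r - 4 * (ν * (1 - p))
        = faceT ν p - (ν + 2) * d := by rw [← eT, hd]; ring
    nlinarith [mul_le_mul_of_nonneg_right hA hd0]
  unfold stepP stepR fieldP fieldR
  rw [← sub_nonneg]
  have e : r + (2 * cCoef ν * p - ν / (ν + 2) - (ν + 2) * r + a * Gr ν p r) / 2 / (20 * ν)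
      - (4 * (p + (ν * (1 - p) + a * Gp ν p r) / 2 / (20 * ν)) - 17/5)
      = ((2 * cCoef ν * p - ν / (ν + 2) - (ν + 2) * r + a * Gr ν p r)
        - 4 * (ν * (1 - p) + a * Gp ν p r) + 40 * ν * d) / (40 * ν) := by
    rw [hd]; field_simp; ring
  rw [e]; exact div_nonneg hsum (by linarith)

/-- The polytope is invariant under the Euler step. -/
theorem reg_step (hν : 9 ≤ ν) (ha : 0 ≤ a) (haA : a * (ν - 5) ≤ 2 * ν) (h : Reg ν p r) :
    Reg ν (stepP ν a p r) (stepR ν a p r) :=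
  ⟨stepP_ge hν ha haA h, stepP_le hν ha haA h, stepR_ge hν ha haA h, stepR_le hν ha haA h,
    stepR_line hν ha haA h⟩

end Vale.Agent.P252
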