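import Vale.Agent.P252.Invariant

/-!
# Lipschitz bounds for the Euler step
-/

namespace Vale.Agent.P252

variable {ν a a' p p' r r' D : ℝ}

theorem abs_mul_le_mul {x y X Y : ℝ} (hx : |x| ≤ X) (hy : |y| ≤ Y) : |x * y| ≤ X * Y := by
  rw [abs_mul]
  exact mul_le_mul hx hy (abs_nonneg y) ((abs_nonneg x).trans hx)

theorem reg_bounds (hν : 9 ≤ ν) (h : Reg ν p r) : 1 ≤ p ∧ p ≤ 21/10 ∧ 0 ≤ r ∧ r ≤ 5 := by
  obtain ⟨h1, h2, h3, h4, h5⟩ := h
  exact ⟨h1, h2, by linarith [(rInit_bounds hν).1], h4⟩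

theorem one_add_inv_le (hν : 9 ≤ ν) : 0 ≤ 1/ν ∧ 1/ν ≤ 1/9 :=
  ⟨one_div_nonneg.2 (by linarith), one_div_le_one_div_of_le (by norm_num) hν⟩

theorem abs_Gp_le (hν : 9 ≤ ν) (h : Reg ν p r) : |Gp ν p r| ≤ 20 := by
  obtain ⟨h1, h2, h3, h4⟩ := reg_bounds hν h
  obtain ⟨hi, hi'⟩ := one_add_inv_le hν
  have e : Gp ν p r = r * (1 - p) + p * (2 * p * (1 + 1/ν) - 1) := by
    unfold Gp; field_simp
  rw [e]
  have h5 : |2 * p * (1 + 1/ν) - 1| ≤ 6 := abs_le.2 ⟨by nlinarith, by nlinarith⟩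
  have h6 := abs_mul_le_mul (abs_le.2 ⟨by linarith, by linarith⟩ : |p| ≤ 21/10) h5
  have h7 := abs_mul_le_mul (abs_le.2 ⟨by linarith, h4⟩ : |r| ≤ 5)
    (abs_le.2 ⟨by linarith, by linarith⟩ : |1 - p| ≤ 11/10)
  exact (abs_add_le _ _).trans (by linarith)

theorem abs_Gr_le (hν : 9 ≤ ν) (h : Reg ν p r) : |Gr ν p r| ≤ 100 := by
  obtain ⟨h1, h2, h3, h4⟩ := reg_bounds hν h
  obtain ⟨hc, hc'⟩ := cCoef_bounds hν
  obtain ⟨hi, hi'⟩ := one_add_inv_le hν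
  have hq : 0 ≤ (2 * cCoef ν * p - ν / (ν + 2)) / ν ∧
      (2 * cCoef ν * p - ν / (ν + 2)) / ν ≤ 6 := by
    have hb : 0 ≤ ν / (ν + 2) ∧ ν / (ν + 2) ≤ 1 :=
      ⟨div_nonneg (by linarith) (by linarith), by rw [div_le_one (by linarith)]; linarith⟩
    constructor
    · exact div_nonneg (by nlinarith) (by linarith)
    · rw [div_le_iff₀ (by linarith)]; nlinarith
  have e : Gr ν p r = r * ((2 * cCoef ν * p - ν / (ν + 2)) / ν - r * (1 + 1/ν) + 1) := by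
    unfold Gr; field_simp; ring
  rw [e]
  have hr' : 0 ≤ r * (1 + 1/ν) ∧ r * (1 + 1/ν) ≤ 50/9 :=
    ⟨by nlinarith, by nlinarith⟩
  refine (abs_mul_le_mul (abs_le.2 ⟨by linarith, h4⟩ : |r| ≤ 5)
    (Y := 20) (abs_le.2 ⟨by linarith, by linarith⟩)).trans (by norm_num)

theorem abs_Gp_sub_le (hν : 9 ≤ ν) (h : Reg ν p r) (h' : Reg ν p' r')
    (hp : |p - p'| ≤ D) (hr : |r - r'| ≤ 8 * D) : |Gp ν p r - Gp ν p' r'| ≤ 27 * D := by
  obtain ⟨h1, h2, h3, h4⟩ := reg_bounds hν h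
  obtain ⟨h1', h2', h3', h4'⟩ := reg_bounds hν h'
  obtain ⟨hi, hi'⟩ := one_add_inv_le hν
  have e : Gp ν p r - Gp ν p' r'
      = (r - r') * (1 - p) + (2 * (p + p') * (1 + 1/ν) - 1 - r') * (p - p') := by
    unfold Gp; field_simp; ring
  rw [e]
  have h5 : |2 * (p + p') * (1 + 1/ν) - 1 - r'| ≤ 18 :=
    abs_le.2 ⟨by nlinarith, by nlinarith⟩
  have h6 := abs_mul_le_mul h5 hp
  have h7 := abs_mul_le_mul hr (abs_le.2 ⟨by linarith, by linarith⟩ : |1 - p| ≤ 11/10)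
  have : 0 ≤ D := (abs_nonneg _).trans hp
  exact (abs_add_le _ _).trans (by linarith)

theorem abs_Gr_sub_le (hν : 9 ≤ ν) (h : Reg ν p r) (h' : Reg ν p' r')
    (hp : |p - p'| ≤ D) (hr : |r - r'| ≤ 8 * D) : |Gr ν p r - Gr ν p' r'| ≤ 300 * D := by
  obtain ⟨h1, h2, h3, h4⟩ := reg_bounds hν h
  obtain ⟨h1', h2', h3', h4'⟩ := reg_bounds hν h'
  obtain ⟨hc, hc'⟩ := cCoef_bounds hν
  obtain ⟨hi, hi'⟩ := one_add_inv_le hν
  have e : Gr ν p r - Gr ν p' r'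
      = (r - r') * ((2 * cCoef ν * p - ν / (ν + 2)) / ν - (r + r') * (1 + 1/ν) + 1)
        + r' * (2 * cCoef ν / ν) * (p - p') := by
    unfold Gr; field_simp; ring
  have hq : 0 ≤ (2 * cCoef ν * p - ν / (ν + 2)) / ν ∧
      (2 * cCoef ν * p - ν / (ν + 2)) / ν ≤ 6 := by
    have hb : 0 ≤ ν / (ν + 2) ∧ ν / (ν + 2) ≤ 1 :=
      ⟨div_nonneg (by linarith) (by linarith), by rw [div_le_one (by linarith)]; linarith⟩
    constructor
    · exact div_nonneg (by nlinarith) (by linarith)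
    · rw [div_le_iff₀ (by linarith)]; nlinarith
  have hrr : 0 ≤ (r + r') * (1 + 1/ν) ∧ (r + r') * (1 + 1/ν) ≤ 100/9 :=
    ⟨by nlinarith, by nlinarith⟩
  have h5 : |(2 * cCoef ν * p - ν / (ν + 2)) / ν - (r + r') * (1 + 1/ν) + 1| ≤ 12 :=
    abs_le.2 ⟨by linarith, by linarith⟩
  have h6 := abs_mul_le_mul hr h5
  have hcν : |2 * cCoef ν / ν| ≤ 4 := by
    rw [abs_of_nonneg (div_nonneg (by linarith) (by linarith)), div_le_iff₀ (by linarith)]
    linarith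
  have h7 := abs_mul_le_mul
    (abs_mul_le_mul (abs_le.2 ⟨by linarith, h4'⟩ : |r'| ≤ 5) hcν) hp
  have : 0 ≤ D := (abs_nonneg _).trans hp
  rw [e]
  exact (abs_add_le _ _).trans (by linarith)

theorem stepP_lip (hν : 9 ≤ ν) (h : Reg ν p r) (h' : Reg ν p' r') (ha : 0 ≤ a)
    (hp : |p - p'| ≤ D) (hr : |r - r'| ≤ 8 * D) :
    |stepP ν a p r - stepP ν a' p' r'| ≤ (59/60 + a) * D + |a - a'| := by
  have hν0 : 0 < ν := by linarith
  have hD : 0 ≤ D := (abs_nonneg _).trans hp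
  have e : stepP ν a p r - stepP ν a' p' r' = 39/40 * (p - p')
      + (a * (Gp ν p r - Gp ν p' r') + (a - a') * Gp ν p' r') * (1 / (40 * ν)) := by
    unfold stepP fieldP; field_simp; ring
  have h1 := abs_mul_le_mul (abs_of_nonneg ha).le (abs_Gp_sub_le hν h h' hp hr)
  have h2 := abs_mul_le_mul (le_refl |a - a'|) (abs_Gp_le hν h')
  have h3 : |1 / (40 * ν)| ≤ 1/360 := by
    rw [abs_of_nonneg (by positivity)]
    exact one_div_le_one_div_of_le (by norm_num) (by linarith)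
  have h4 := abs_mul_le_mul ((abs_add_le _ _).trans (add_le_add h1 h2)) h3
  rw [e]
  refine (abs_add_le _ _).trans ?_
  have h5 := abs_mul_le_mul (abs_of_nonneg (by norm_num : (0:ℝ) ≤ 39/40)).le hp
  have : 0 ≤ a * D := mul_nonneg ha hD
  have := abs_nonneg (a - a')
  linarith

theorem stepR_lip (hν : 9 ≤ ν) (h : Reg ν p r) (h' : Reg ν p' r') (ha : 0 ≤ a)
    (hp : |p - p'| ≤ D) (hr : |r - r'| ≤ 8 * D) :
    |stepR ν a p r - stepR ν a' p' r'| ≤ 8 * ((59/60 + a) * D + |a - a'|) := by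
  have hν0 : 0 < ν := by linarith
  have hD : 0 ≤ D := (abs_nonneg _).trans hp
  obtain ⟨hc, hc'⟩ := cCoef_bounds hν
  have e : stepR ν a p r - stepR ν a' p' r'
      = (1 - (ν + 2) / (40 * ν)) * (r - r') + cCoef ν / (20 * ν) * (p - p')
        + (a * (Gr ν p r - Gr ν p' r') + (a - a') * Gr ν p' r') * (1 / (40 * ν)) := by
    unfold stepR fieldR; field_simp; ring
  have h1 := abs_mul_le_mul (abs_of_nonneg ha).le (abs_Gr_sub_le hν h h' hp hr)
  have h2 := abs_mul_le_mul (le_refl |a - a'|) (abs_Gr_le hν h')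
  have h3 : |1 / (40 * ν)| ≤ 1/360 := by
    rw [abs_of_nonneg (by positivity)]
    exact one_div_le_one_div_of_le (by norm_num) (by linarith)
  have h4 := abs_mul_le_mul ((abs_add_le _ _).trans (add_le_add h1 h2)) h3
  have hb : (ν + 2) / (40 * ν) ≤ 1 := by rw [div_le_one (by linarith)]; linarith
  have h5 := abs_mul_le_mul (abs_of_nonneg (sub_nonneg.2 hb)).le hr
  have h6 := abs_mul_le_mul (abs_of_nonneg (div_nonneg (by linarith) (by linarith) :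
    (0:ℝ) ≤ cCoef ν / (20 * ν))).le hp
  have h7 : (1 - (ν + 2) / (40 * ν)) * 8 + cCoef ν / (20 * ν) ≤ 8 * (59/60) := by
    have e7 : (1 - (ν + 2) / (40 * ν)) * 8 + cCoef ν / (20 * ν)
        = 8 - (4 * (ν + 2) - cCoef ν) / (20 * ν) := by field_simp; ring
    rw [e7]
    have : (2/15:ℝ) ≤ (4 * (ν + 2) - cCoef ν) / (20 * ν) := by
      rw [le_div_iff₀ (by linarith)]; linarith
    linarith
  have h8 := mul_le_mul_of_nonneg_right h7 hD
  rw [e]
  refine (abs_add_three _ _ _).trans ?_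
  have : 0 ≤ a * D := mul_nonneg ha hD
  have := abs_nonneg (a - a')
  linarith

end Vale.Agent.P252
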